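import Vale.Agent.P204.Full.Global.JRead
import Vale.Agent.P204.Full.Alg.Frame

/-!
P204, global lemmas: the fixed positive form in charts and the chart-free ratio `wg` (helper23).
-/

namespace Vale.Agent.P204.Full

open Set Filter Metric Matrix
open scoped Manifold ContDiff Topology

set_option linter.unusedSectionVars false

universe u

variable {M : Type u} [TopologicalSpace M] [ChartedSpace E4 M]

/-- the Jacobian of a transition map is invertible -/
theorem det_jac_tr_ne {c c' : OpenPartialHomeomorph M E4} (hc : IsChart c) (hc' : IsChart c') {y : E4}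
    (hy : y ∈ ov c c') : (jac (tr c c') y).det ≠ 0 := by
  intro h0
  obtain ⟨v, hv, hv0⟩ := Matrix.exists_mulVec_eq_zero_iff.2 h0
  apply hv
  have h1 : fderiv ℝ (tr c c') y (WithLp.toLp 2 v) = 0 := by
    conv_lhs => rw [← sum_ev4 (WithLp.toLp 2 v), map_sum]
    ext p
    have := congrFun hv0 p
    simp only [Matrix.mulVec, dotProduct, jac, Pi.zero_apply] at this
    simp only [map_smul, WithLp.ofLp_sum, WithLp.ofLp_smul, Finset.sum_apply, Pi.smul_apply,
      smul_eq_mul, WithLp.ofLp_zero, Pi.zero_apply]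
    rw [← this]
    exact Finset.sum_congr rfl fun a _ => mul_comm _ _
  have h2 := fderiv_tr_injective hc hc' hy (h1.trans (map_zero _).symm)
  exact congrArg WithLp.ofLp h2

namespace Setup

variable (S : Setup M)

/-- the matrix of `J` in the `i`-th chart is near the standard one -/
theorem near (i : Fin S.at_.n) {y : E4} (hy : y ∈ closedBall (0 : E4) 4) :
    Alg.Near (readJ (S.at_.chart i) S.J y) :=
  ⟨readJ_mul_self S.isJ (S.at_.mem_maximal i) (S.at_.ball_subset i hy), S.at_.near_std i y hy⟩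

theorem ev2_read {w : M → E4 → E4 → ℝ} (hw : IsAltField w) {c : OpenPartialHomeomorph M E4}
    (hc : IsChart c) {y : E4} (hy : y ∈ c.target) (v : C1) :
    Alg.ev2 (readC c w y) v ((readJ c S.J y).mulVec v) =
      w (c.symm y) (dInv c y (WithLp.toLp 2 v)) (S.J (c.symm y) (dInv c y (WithLp.toLp 2 v))) := by
  rw [J_dInv S.isJ hc hy, hw.dInv_eq_sum]
  rfl

theorem anti_read (i : Fin S.at_.n) {w : M → E4 → E4 → ℝ} (hw : IsAltField w) (y : E4) :
    Anti (S.read i w y) := hw.anti_readC _ _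

theorem inv_read_F {c : OpenPartialHomeomorph M E4} (hc : IsChart c) {y : E4} (hy : y ∈ c.target) :
    Alg.Inv (readJ c S.J y) (readC c S.F.1 y) := by
  have h := readC_p11 S.isJ S.F.2.isAltField hc hy
  rw [S.F_inv] at h
  rw [h]
  exact Alg.inv_p11C (readJ_mul_self S.isJ hc hy) _

theorem pos_read_F {c : OpenPartialHomeomorph M E4} (hc : IsChart c) {y : E4} (hy : y ∈ c.target)
    {v : C1} (hv : v ≠ 0) :
    0 < Alg.ev2 (readC c S.F.1 y) v ((readJ c S.J y).mulVec v) := by
  rw [S.ev2_read S.F.2.isAltField hc hy]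
  refine S.F_pos _ _ fun h => hv ?_
  have h' := dInv_injective hc hy (h.trans (map_zero (dInvL c y)).symm)
  exact congrArg WithLp.ofLp h'

theorem pos_read {w : M → E4 → E4 → ℝ} (hw : IsAltField w) (hp : NonnegJ S.J w)
    {c : OpenPartialHomeomorph M E4} (hc : IsChart c) {y : E4} (hy : y ∈ c.target) :
    Alg.Pos (readJ c S.J y) (readC c w y) := fun v => by
  rw [S.ev2_read hw hc hy]
  exact hp _ _

/-- the density of the fixed form is positive in the adapted charts -/
theorem wdg_read_F_pos (i : Fin S.at_.n) {y : E4} (hy : y ∈ closedBall (0 : E4) 4) :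
    0 < wdg (S.read i S.F.1 y) (S.read i S.F.1 y) := by
  have hA := S.near i hy
  have ht := S.at_.ball_subset i hy
  have hc := S.at_.mem_maximal i
  have hw : Anti (S.read i S.F.1 y) := S.anti_read i S.F.2.isAltField y
  have hb := Alg.anti_pullC hw (frame (readJ (S.at_.chart i) S.J y))
  have e := hA.wdg_frame hw hw
  obtain ⟨h1, h2⟩ := (Alg.inv_J0_iff hb).1
    (Alg.inv_conj hA.mul_frame (S.inv_read_F hc ht))
  set A := readJ (S.at_.chart i) S.J y
  set b := pullC (frame A) (S.read i S.F.1 y)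
  have q : ∀ v : C1, v ≠ 0 → 0 < b 0 1 * (v 0 ^ 2 + v 1 ^ 2) + b 2 3 * (v 2 ^ 2 + v 3 ^ 2)
      + 2 * (b 0 2 * (v 2 * v 1 - v 0 * v 3) + b 0 3 * (v 2 * v 0 + v 1 * v 3)) := fun v hv => by
    rw [← Alg.ev2_J0 hb h1 h2, Alg.ev2_pullC, mulVec_mulVec, ← hA.mul_frame, ← mulVec_mulVec]
    refine S.pos_read_F hc ht fun h0 => ?_
    have h3 := (hA.norm_frame_mulVec v).1
    rw [h0, norm_zero] at h3
    exact hv (norm_le_zero_iff.1 (by linarith))
  have hd : 0 < b 2 3 := by
    have h := q ![0, 0, 1, 0] fun h => by simpa using congrFun h 2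
    simp at h
    linarith
  have hdet : 0 < b 0 1 * b 2 3 - (b 0 2 ^ 2 + b 0 3 ^ 2) := by
    have h := q ![b 2 3, 0, -b 0 3, b 0 2] fun h => by
      have := congrFun h 0
      simp at this
      linarith
    simp at h
    nlinarith
  have hb2 : wdg b b = 2 * (b 0 1 * b 2 3 - (b 0 2 ^ 2 + b 0 3 ^ 2)) := by
    have h3 : b 1 2 = -b 0 3 := by linarith
    simp only [wdg, ← h1, h3]
    ring
  rw [hb2] at e
  nlinarith [hA.det_frame.1]

theorem exists_rho_ne (x : M) : ∃ k, S.at_.rho k x ≠ 0 := by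
  by_contra h
  push Not at h
  simpa [h] using S.at_.rho_sum x

theorem exists_chart_mem (x : M) : ∃ k, x ∈ (S.at_.chart k).source ∧
    S.at_.chart k x ∈ ball (0 : E4) 1 :=
  let ⟨k, hk⟩ := S.exists_rho_ne x
  ⟨k, S.at_.rho_support k (subset_tsupport _ hk)⟩

/-- in every chart the fixed form is nondegenerate -/
theorem wdg_F_ne {c : OpenPartialHomeomorph M E4} (hc : IsChart c) {y : E4} (hy : y ∈ c.target) :
    wdg (readC c S.F.1 y) (readC c S.F.1 y) ≠ 0 := by
  obtain ⟨k, hk, hkb⟩ := S.exists_chart_mem (c.symm y)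
  have hov : y ∈ ov c (S.at_.chart k) := ⟨hy, hk⟩
  have hkb' : tr c (S.at_.chart k) y ∈ closedBall (0 : E4) 4 :=
    closedBall_subset_closedBall (by norm_num) (ball_subset_closedBall hkb)
  have h := S.F.2.isAltField.readC_tr hc (S.at_.mem_maximal k) hov
  have ha : Anti (readC (S.at_.chart k) S.F.1 (tr c (S.at_.chart k) y)) :=
    S.F.2.isAltField.anti_readC _ _
  rw [h, Alg.wdg_pullC _ ha ha]
  exact mul_ne_zero (det_jac_tr_ne hc (S.at_.mem_maximal k) hov) (S.wdg_read_F_pos k hkb').ne'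

end Setup

variable [IsManifold (𝓡 4) ∞ M]

/-- `wg` may be computed in any chart -/
theorem wg_eq_readC {F w η : M → E4 → E4 → ℝ} (hF : IsAltField F) (hw : IsAltField w)
    (hη : IsAltField η) {c : OpenPartialHomeomorph M E4} (hc : IsChart c) {x : M}
    (hx : x ∈ c.source) :
    wg F w η x = 2 * wdg (readC c w (c x)) (readC c η (c x)) /
      wdg (readC c F (c x)) (readC c F (c x)) := by
  have hc' := isChart_chartAt (M := M) x
  have hov : c x ∈ ov c (chartAt E4 x) := self_mem_ov hx (mem_chart_source E4 x)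
  have ht : tr c (chartAt E4 x) (c x) = chartAt E4 x x := by
    show chartAt E4 x (c.symm (c x)) = _
    rw [c.left_inv hx]
  have h : ∀ {z : M → E4 → E4 → ℝ}, IsAltField z →
      readC c z (c x) = pullC (jac (tr c (chartAt E4 x)) (c x)) (coefAt z x) := fun hz => by
    rw [hz.readC_tr hc hc' hov, ht, coefAt_eq_readC]
  have ha : ∀ {z : M → E4 → E4 → ℝ}, IsAltField z → Anti (coefAt z x) := fun hz a b => hz.2 _ _ _
  have hdet : (jac (tr c (chartAt E4 x)) (c x)).det ≠ 0 := det_jac_tr_ne hc hc' hov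
  rw [h hw, h hη, h hF, Alg.wdg_pullC _ (ha hw) (ha hη), Alg.wdg_pullC _ (ha hF) (ha hF), wg,
    mul_left_comm, mul_div_mul_left _ _ hdet]

omit [IsManifold (𝓡 4) ∞ M] in
theorem wg_comm (F w η : M → E4 → E4 → ℝ) (x : M) : wg F w η x = wg F η w x := by
  simp only [wg, Alg.wdg_comm (coefAt w x)]

omit [IsManifold (𝓡 4) ∞ M] in
theorem wg_add_left (F w w' η : M → E4 → E4 → ℝ) (x : M) :
    wg F (w + w') η x = wg F w η x + wg F w' η x := by
  simp only [wg, ← add_div, ← mul_add, ← Alg.wdg_add_left]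
  rfl

omit [IsManifold (𝓡 4) ∞ M] in
theorem wg_smul_left (F : M → E4 → E4 → ℝ) (r : ℝ) (w η : M → E4 → E4 → ℝ) (x : M) :
    wg F (r • w) η x = r * wg F w η x := by
  show 2 * wdg (r • coefAt w x) (coefAt η x) / _ = _
  rw [Alg.wdg_smul_left, wg]
  ring

omit [IsManifold (𝓡 4) ∞ M] in
theorem wg_smulFn_left (F : M → E4 → E4 → ℝ) (f : M → ℝ) (w η : M → E4 → E4 → ℝ) (x : M) :
    wg F (smulFn f w) η x = f x * wg F w η x := by
  show 2 * wdg (f x • coefAt w x) (coefAt η x) / _ = _
  rw [Alg.wdg_smul_left, wg]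
  ring

omit [IsManifold (𝓡 4) ∞ M] in
theorem wg_add_right (F w η η' : M → E4 → E4 → ℝ) (x : M) :
    wg F w (η + η') x = wg F w η x + wg F w η' x := by
  rw [wg_comm, wg_add_left, wg_comm F η, wg_comm F η']

omit [IsManifold (𝓡 4) ∞ M] in
theorem wg_smul_right (F : M → E4 → E4 → ℝ) (r : ℝ) (w η : M → E4 → E4 → ℝ) (x : M) :
    wg F w (r • η) x = r * wg F w η x := by
  rw [wg_comm, wg_smul_left, wg_comm]

namespace Setup

variable (S : Setup M)

theorem coefAt_F_ne (x : M) : wdg (coefAt S.F.1 x) (coefAt S.F.1 x) ≠ 0 := by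
  rw [coefAt_eq_readC]
  exact S.wdg_F_ne (isChart_chartAt x) ((chartAt E4 x).map_source (mem_chart_source E4 x))

theorem wg_F_F (x : M) : wg S.F.1 S.F.1 S.F.1 x = 2 := by
  simp only [wg]
  rw [mul_div_assoc, div_self (S.coefAt_F_ne x), mul_one]

theorem wg_read (i : Fin S.at_.n) {w η : M → E4 → E4 → ℝ} (hw : IsAltField w) (hη : IsAltField η)
    {y : E4} (hy : y ∈ closedBall (0 : E4) 4) :
    wg S.F.1 w η ((S.at_.chart i).symm y) =
      2 * wdg (S.read i w y) (S.read i η y) / wdg (S.read i S.F.1 y) (S.read i S.F.1 y) := by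
  have ht := S.at_.ball_subset i hy
  rw [wg_eq_readC S.F.2.isAltField hw hη (S.at_.mem_maximal i) ((S.at_.chart i).map_target ht),
    (S.at_.chart i).right_inv ht]
  rfl

theorem wg_inv_anti {w η : M → E4 → E4 → ℝ} (hw : IsAltField w) (hη : IsAltField η)
    (hi : p11 S.J w = w) (ha : pm S.J η = η) (x : M) : wg S.F.1 w η x = 0 := by
  obtain ⟨k, hk, hkb⟩ := S.exists_chart_mem x
  have hy : S.at_.chart k x ∈ closedBall (0 : E4) 4 :=
    closedBall_subset_closedBall (by norm_num) (ball_subset_closedBall hkb)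
  have hc := S.at_.mem_maximal k
  have ht := S.at_.ball_subset k hy
  rw [wg_eq_readC S.F.2.isAltField hw hη hc hk]
  have h1 := readC_p11 S.isJ hw hc ht
  rw [hi] at h1
  have h2 := readC_pm S.isJ hη hc ht
  rw [ha] at h2
  rw [h1, h2, (S.near k hy).wdg_p11_pm (hw.anti_readC _ _) (hη.anti_readC _ _), mul_zero, zero_div]

theorem wg_p11_pm {w η : Form M} (x : M) : wg S.F.1 (p11 S.J w.1) (pm S.J η.1) x = 0 :=
  S.wg_inv_anti (isTwoForm_p11 S.isJ w.2).isAltField (isTwoForm_pm S.isJ η.2).isAltField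
    (p11_p11 S.isJ w.2.isAltField) (pm_pm S.isJ η.2.isAltField) x

theorem wg_eq_p11_add_pm (w η : Form M) (x : M) :
    wg S.F.1 w.1 η.1 x = wg S.F.1 (p11 S.J w.1) (p11 S.J η.1) x +
      wg S.F.1 (pm S.J w.1) (pm S.J η.1) x := by
  conv_lhs => rw [← p11_add_pm S.J w.1, ← p11_add_pm S.J η.1]
  rw [wg_add_left, wg_add_right, wg_add_right, S.wg_p11_pm, wg_comm _ (pm S.J w.1) (p11 S.J η.1),
    S.wg_p11_pm]
  ring

theorem continuous_wg {w η : M → E4 → E4 → ℝ} (hw : IsTwoForm w) (hη : IsTwoForm η) :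
    Continuous (wg S.F.1 w η) := by
  refine continuous_iff_continuousAt.2 fun x => ?_
  set c := chartAt E4 x
  have hc := isChart_chartAt (M := M) x
  have hx : x ∈ c.source := mem_chart_source E4 x
  have ht := c.map_source hx
  have hC : ∀ {z : M → E4 → E4 → ℝ}, IsTwoForm z → ∀ a b,
      ContinuousAt (fun y => readC c z y a b) (c x) := fun hz a b =>
    (hz.contDiffOn_coef hc a b).continuousOn.continuousAt (c.open_target.mem_nhds ht)
  have hW : ∀ {z z' : M → E4 → E4 → ℝ}, IsTwoForm z → IsTwoForm z' →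
      ContinuousAt (fun y => wdg (readC c z y) (readC c z' y)) (c x) := fun hz hz' => by
    simp only [wdg]
    exact (((((( hC hz 0 1).mul (hC hz' 2 3)).sub ((hC hz 0 2).mul (hC hz' 1 3))).add
      ((hC hz 0 3).mul (hC hz' 1 2))).add ((hC hz 1 2).mul (hC hz' 0 3))).sub
      ((hC hz 1 3).mul (hC hz' 0 2))).add ((hC hz 2 3).mul (hC hz' 0 1))
  have h : ContinuousAt (fun y => 2 * wdg (readC c w y) (readC c η y) /
      wdg (readC c S.F.1 y) (readC c S.F.1 y)) (c x) :=
    (continuousAt_const.mul (hW hw hη)).div (hW S.F.2 S.F.2) (S.wdg_F_ne hc ht)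
  refine (h.comp (c.continuousAt hx)).congr ?_
  filter_upwards [c.open_source.mem_nhds hx] with z hz
  exact (wg_eq_readC S.F.2.isAltField hw.isAltField hη.isAltField hc hz).symm

theorem continuous_nrm {w : M → E4 → E4 → ℝ} (hw : IsTwoForm w) : Continuous (S.nrm w) := by
  refine continuous_finsetSum _ fun i _ => continuous_iff_continuousAt.2 fun x => ?_
  by_cases hx : x ∈ tsupport (S.at_.rho i)
  · have hs := (S.at_.rho_support i hx).1
    refine ((S.at_.rho_smooth i).continuous.continuousAt).mul (ContinuousAt.norm ?_)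
    exact ((hw.contDiffAt_readC (S.at_.mem_maximal i)
      ((S.at_.chart i).map_source hs)).continuousAt).comp ((S.at_.chart i).continuousAt hs)
  · refine continuousAt_const.congr (f := fun _ => (0 : ℝ)) ?_
    filter_upwards [notMem_tsupport_iff_eventuallyEq.1 hx] with z hz
    simp [hz]

end Setup

end Vale.Agent.P204.Full
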