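import Vale.Agent.P204.Full.Global.Pointwise

/-!
P204, global lemmas: the volume measure read in an arbitrary chart, the pairing (helper23).
-/

namespace Vale.Agent.P204.Full

open Set Filter Metric MeasureTheory Matrix
open scoped Manifold ContDiff Topology

set_option linter.unusedSectionVars false

universe u

/-- the determinant of a differential is that of its Jacobian matrix -/
theorem det_fderiv_eq_jac (Φ : E4 → E4) (y : E4) : (fderiv ℝ Φ y).det = (jac Φ y).det := by
  let b := (EuclideanSpace.basisFun (Fin 4) ℝ).toBasis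
  rw [ContinuousLinearMap.det, ← LinearMap.det_toMatrix b]
  congr 1

/-- a function continuous on the target and vanishing off a compact subset is integrable -/
theorem integrableOn_of_compact_zero {U K : Set E4} (hU : MeasurableSet U) (hK : IsCompact K)
    (hKU : K ⊆ U) {g : E4 → ℝ} (hg : ContinuousOn g U) (h0 : ∀ y ∈ U, y ∉ K → g y = 0) :
    IntegrableOn g U volume :=
  ((hg.mono hKU).integrableOn_compact hK).of_forall_sdiff_eq_zero hU fun y hy => h0 y hy.1 hy.2

variable {M : Type u} [TopologicalSpace M] [ChartedSpace E4 M]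

namespace Setup

variable (S : Setup M)

/-- density of the fixed form in a chart -/
noncomputable def densC (c : OpenPartialHomeomorph M E4) (y : E4) : ℝ :=
  |wdg (readC c S.F.1 y) (readC c S.F.1 y)| / 2

theorem densC_eq (i : Fin S.at_.n) {y : E4} (hy : y ∈ closedBall (0 : E4) 4) :
    S.densC (S.at_.chart i) y = wdg (S.read i S.F.1 y) (S.read i S.F.1 y) / 2 := by
  rw [densC]
  congr 1
  exact abs_of_pos (S.wdg_read_F_pos i hy)

theorem densC_nonneg (c : OpenPartialHomeomorph M E4) (y : E4) : 0 ≤ S.densC c y :=
  div_nonneg (abs_nonneg _) (by norm_num)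

theorem densC_tr {c c' : OpenPartialHomeomorph M E4} (hc : IsChart c) (hc' : IsChart c') {y : E4}
    (hy : y ∈ ov c c') :
    S.densC c y = |(fderiv ℝ (tr c c') y).det| * S.densC c' (tr c c' y) := by
  have ha : Anti (readC c' S.F.1 (tr c c' y)) := S.F.2.isAltField.anti_readC _ _
  rw [densC, densC, S.F.2.isAltField.readC_tr hc hc' hy, Alg.wdg_pullC _ ha ha, abs_mul,
    det_fderiv_eq_jac, mul_div_assoc]

variable [IsManifold (𝓡 4) ∞ M]

theorem continuousOn_densC {c : OpenPartialHomeomorph M E4} (hc : IsChart c) :
    ContinuousOn (S.densC c) c.target := by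
  have h := fun a b => (S.F.2.contDiffOn_coef hc a b).continuousOn
  refine ContinuousOn.div_const (ContinuousOn.abs ?_) _
  simp only [wdg]
  exact ((((((h 0 1).mul (h 2 3)).sub ((h 0 2).mul (h 1 3))).add ((h 0 3).mul (h 1 2))).add
    ((h 1 2).mul (h 0 3))).sub ((h 1 3).mul (h 0 2))).add ((h 2 3).mul (h 0 1))

/-- integrand of the `i`-th summand of the volume -/
noncomputable def volDens (i : Fin S.at_.n) (y : E4) : ℝ :=
  S.at_.rho i ((S.at_.chart i).symm y) * (wdg (S.read i S.F.1 y) (S.read i S.F.1 y) / 2)

theorem continuousOn_volDens (i : Fin S.at_.n) :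
    ContinuousOn (S.volDens i) (closedBall (0 : E4) 4) := by
  have h1 := ((S.at_.rho_smooth i).contDiffOn (S.at_.mem_maximal i)).continuousOn.mono
    (S.at_.ball_subset i)
  exact h1.mul (((S.continuousOn_densC (S.at_.mem_maximal i)).mono (S.at_.ball_subset i)).congr
    fun y hy => (S.densC_eq i hy).symm)

theorem volDens_nonneg (i : Fin S.at_.n) {y : E4} (hy : y ∈ closedBall (0 : E4) 4) :
    0 ≤ S.volDens i y :=
  mul_nonneg (S.at_.rho_nonneg _ _) (by linarith [S.wdg_read_F_pos i hy])

theorem integrableOn_volDens (i : Fin S.at_.n) :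
    IntegrableOn (S.volDens i) (ball (0 : E4) 1) volume :=
  (((S.continuousOn_volDens i).mono (closedBall_subset_closedBall (by norm_num))).integrableOn_compact
    (isCompact_closedBall (0 : E4) 1)).mono_set ball_subset_closedBall

variable [MeasurableSpace M] [BorelSpace M]

theorem aemeasurable_symm (i : Fin S.at_.n) (μ : Measure E4) :
    AEMeasurable (S.at_.chart i).symm (μ.restrict (ball (0 : E4) 1)) :=
  ((S.at_.chart i).symm.continuousOn.mono (((ball_subset_closedBall).trans
    (closedBall_subset_closedBall (by norm_num))).trans (S.at_.ball_subset i))).aemeasurable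
    measurableSet_ball

theorem volume_summand_eq (i : Fin S.at_.n) :
    (volume.restrict (ball (0 : E4) 1)).withDensity (fun y =>
      ENNReal.ofReal (S.at_.rho i ((S.at_.chart i).symm y) *
        (wdg (S.read i S.F.1 y) (S.read i S.F.1 y) / 2))) =
    (volume.restrict (ball (0 : E4) 1)).withDensity fun y => ENNReal.ofReal (S.volDens i y) := rfl

instance isFiniteMeasure_vol : IsFiniteMeasure S.vol := by
  unfold Setup.vol
  refine ⟨?_⟩
  rw [Measure.finsetSum_apply]
  refine ENNReal.sum_lt_top.2 fun i _ => ?_
  rw [S.volume_summand_eq i]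
  have := isFiniteMeasure_withDensity_ofReal (S.integrableOn_volDens i).hasFiniteIntegral
  exact measure_lt_top _ _

/-- integrals against the volume -/
theorem integral_vol [CompactSpace M] {f : M → ℝ} (hf : Continuous f) :
    ∫ x, f x ∂S.vol =
      ∑ i, ∫ y in ball (0 : E4) 1, S.volDens i y * f ((S.at_.chart i).symm y) := by
  have hfin := fun i => isFiniteMeasure_withDensity_ofReal
    (S.integrableOn_volDens i).hasFiniteIntegral
  unfold Setup.vol
  rw [integral_finsetSum_measure fun i _ => ?_]
  swap
  · rw [S.volume_summand_eq i]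
    have := hfin i
    exact hf.integrable_of_hasCompactSupport (HasCompactSupport.of_compactSpace f)
  refine Finset.sum_congr rfl fun i _ => ?_
  rw [S.volume_summand_eq i]
  have hm : AEMeasurable (S.at_.chart i).symm
      ((volume.restrict (ball (0 : E4) 1)).withDensity fun y => ENNReal.ofReal (S.volDens i y)) :=
    (S.aemeasurable_symm i volume).mono_ac (withDensity_absolutelyContinuous _ _)
  rw [integral_map hm hf.aestronglyMeasurable,
    integral_withDensity_eq_integral_toReal_smul₀
      (S.integrableOn_volDens i).aemeasurable.ennreal_ofReal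
      (Eventually.of_forall fun y => ENNReal.ofReal_lt_top)]
  refine setIntegral_congr_fun measurableSet_ball fun y hy => ?_
  rw [ENNReal.toReal_ofReal (S.volDens_nonneg i
    (closedBall_subset_closedBall (by norm_num) (ball_subset_closedBall hy))), smul_eq_mul]

theorem integrable_of_continuous [CompactSpace M] {f : M → ℝ} (hf : Continuous f) :
    Integrable f S.vol :=
  hf.integrable_of_hasCompactSupport (HasCompactSupport.of_compactSpace f)

theorem integrable_wg [CompactSpace M] {w η : M → E4 → E4 → ℝ} (hw : IsTwoForm w)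
    (hη : IsTwoForm η) : Integrable (wg S.F.1 w η) S.vol :=
  S.integrable_of_continuous (S.continuous_wg hw hη)

theorem integrable_nrm [CompactSpace M] {w : M → E4 → E4 → ℝ} (hw : IsTwoForm w) :
    Integrable (S.nrm w) S.vol :=
  S.integrable_of_continuous (S.continuous_nrm hw)

/-- the integral of a function supported in a chart, computed in that chart -/
theorem integral_vol_chart [T2Space M] [CompactSpace M] {c : OpenPartialHomeomorph M E4}
    (hc : IsChart c) {f : M → ℝ} (hf : Continuous f) (hs : tsupport f ⊆ c.source) :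
    ∫ x, f x ∂S.vol = ∫ y in c.target, f (c.symm y) * S.densC c y := by
  set K : Set E4 := c '' tsupport f with hK
  have hKc : IsCompact K :=
    ((isClosed_tsupport f).isCompact).image_of_continuousOn (c.continuousOn.mono hs)
  have hKt : K ⊆ c.target := by
    rintro _ ⟨x, hx, rfl⟩
    exact c.map_source (hs hx)
  have h0 : ∀ y ∈ c.target, y ∉ K → f (c.symm y) = 0 := fun y hy hyK =>
    image_eq_zero_of_notMem_tsupport fun hm => hyK ⟨c.symm y, hm, c.right_inv hy⟩
  have hfc : ContinuousOn (fun y => f (c.symm y)) c.target :=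
    hf.comp_continuousOn c.symm.continuousOn
  set h : Fin S.at_.n → E4 → ℝ :=
    fun k y => S.at_.rho k (c.symm y) * (f (c.symm y) * S.densC c y) with hh
  have hint : ∀ k, IntegrableOn (h k) c.target volume := fun k =>
    integrableOn_of_compact_zero c.open_target.measurableSet hKc hKt
      (((S.at_.rho_smooth k).contDiffOn hc).continuousOn.mul
        (hfc.mul (S.continuousOn_densC hc)))
      fun y hy hyK => by simp [hh, h0 y hy hyK]
  have hterm : ∀ k, ∫ y in ball (0 : E4) 1, S.volDens k y * f ((S.at_.chart k).symm y) =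
      ∫ y in c.target, h k y := by
    intro k
    set ck := S.at_.chart k with hck
    have hck' : IsChart ck := S.at_.mem_maximal k
    set U : Set E4 := ov c ck ∩ tr c ck ⁻¹' ball (0 : E4) 1 with hU
    have hUo : IsOpen U :=
      (contDiffOn_tr hc hck').continuousOn.isOpen_inter_preimage (isOpen_ov c ck) isOpen_ball
    have hinj : InjOn (tr c ck) U := fun a ha b hb hab => by
      rw [← tr_tr ha.1, ← tr_tr hb.1, hab]
    have himg : tr c ck '' U = ball (0 : E4) 1 ∩ ck.symm ⁻¹' c.source := by
      ext z
      constructor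
      · rintro ⟨y, hy, rfl⟩
        exact ⟨hy.2, (tr_mem_ov hy.1).2⟩
      · rintro ⟨hz1, hz2⟩
        have hz : z ∈ ov ck c :=
          ⟨(ball_subset_closedBall.trans (closedBall_subset_closedBall (by norm_num))).trans
            (S.at_.ball_subset k) hz1, hz2⟩
        exact ⟨tr ck c z, ⟨tr_mem_ov hz, by rw [mem_preimage, tr_tr hz]; exact hz1⟩, tr_tr hz⟩
    have hd : ∀ y ∈ U, HasFDerivWithinAt (tr c ck) (fderiv ℝ (tr c ck) y) U y := fun y hy =>
      (differentiableAt_tr hc hck' hy.1).hasFDerivAt.hasFDerivWithinAt
    calc ∫ z in ball (0 : E4) 1, S.volDens k z * f (ck.symm z)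
        = ∫ z in tr c ck '' U, S.volDens k z * f (ck.symm z) := by
          rw [himg]
          refine setIntegral_eq_of_subset_of_forall_sdiff_eq_zero measurableSet_ball
            inter_subset_left fun z hz => ?_
          rw [image_eq_zero_of_notMem_tsupport fun hm => hz.2 ⟨hz.1, hs hm⟩, mul_zero]
      _ = ∫ y in U, |(fderiv ℝ (tr c ck) y).det| •
            (S.volDens k (tr c ck y) * f (ck.symm (tr c ck y))) :=
          integral_image_eq_integral_abs_det_fderiv_smul volume hUo.measurableSet hd hinj _
      _ = ∫ y in U, h k y := by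
          refine setIntegral_congr_fun hUo.measurableSet fun y hy => ?_
          have hb : tr c ck y ∈ closedBall (0 : E4) 4 :=
            closedBall_subset_closedBall (by norm_num) (ball_subset_closedBall hy.2)
          simp only [hh, Setup.volDens, ← hck, symm_tr hy.1, smul_eq_mul]
          rw [← S.densC_eq k hb, S.densC_tr hc hck' hy.1]
          ring
      _ = ∫ y in c.target, h k y := by
          refine (setIntegral_eq_of_subset_of_forall_sdiff_eq_zero c.open_target.measurableSet
            (fun y hy => hy.1.1) fun y hy => ?_).symm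
          have hr : S.at_.rho k (c.symm y) = 0 := by
            by_contra hne
            have h1 := S.at_.rho_support k (subset_tsupport _ hne)
            exact hy.2 ⟨⟨hy.1, h1.1⟩, h1.2⟩
          simp [hh, hr]
  rw [S.integral_vol hf, Finset.sum_congr rfl fun k _ => hterm k,
    ← integral_finsetSum _ fun k _ => hint k]
  refine setIntegral_congr_fun c.open_target.measurableSet fun y _ => ?_
  simp only [hh, ← Finset.sum_mul, S.at_.rho_sum, one_mul]

/-- in an adapted chart -/
theorem integral_vol_read [T2Space M] [CompactSpace M] (i : Fin S.at_.n) {f : M → ℝ}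
    (hf : Continuous f)
    (hs : tsupport f ⊆ (S.at_.chart i).source ∩ S.at_.chart i ⁻¹' closedBall (0 : E4) 4) :
    ∫ x, f x ∂S.vol = ∫ y in closedBall (0 : E4) 4,
      f ((S.at_.chart i).symm y) * (wdg (S.read i S.F.1 y) (S.read i S.F.1 y) / 2) := by
  rw [S.integral_vol_chart (S.at_.mem_maximal i) hf fun x hx => (hs hx).1]
  rw [setIntegral_eq_of_subset_of_forall_sdiff_eq_zero (S.at_.chart i).open_target.measurableSet
    (S.at_.ball_subset i) fun y hy => ?_]
  · exact setIntegral_congr_fun measurableSet_closedBall fun y hy => by rw [S.densC_eq i hy]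
  · have h0 : f ((S.at_.chart i).symm y) = 0 := image_eq_zero_of_notMem_tsupport fun hm => hy.2 <| by
      have h1 := (hs hm).2
      rwa [mem_preimage, (S.at_.chart i).right_inv hy.1] at h1
    rw [h0, zero_mul]

/-! ### the pairing -/

variable [CompactSpace M]

theorem pair_comm (w η : M → E4 → E4 → ℝ) : S.pair w η = S.pair η w := by
  simp only [Setup.pair, wg_comm S.F.1 w η]

theorem pair_add_left {w w' η : M → E4 → E4 → ℝ} (hw : IsTwoForm w) (hw' : IsTwoForm w')
    (hη : IsTwoForm η) : S.pair (w + w') η = S.pair w η + S.pair w' η := by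
  simp only [Setup.pair, wg_add_left]
  exact integral_add (S.integrable_wg hw hη) (S.integrable_wg hw' hη)

theorem pair_smul_left (r : ℝ) (w η : M → E4 → E4 → ℝ) :
    S.pair (r • w) η = r * S.pair w η := by
  simp only [Setup.pair, wg_smul_left, integral_const_mul]

theorem pair_add_right {w η η' : M → E4 → E4 → ℝ} (hw : IsTwoForm w) (hη : IsTwoForm η)
    (hη' : IsTwoForm η') : S.pair w (η + η') = S.pair w η + S.pair w η' := by
  rw [pair_comm, S.pair_add_left hη hη' hw, S.pair_comm η, S.pair_comm η']

theorem pair_smul_right (r : ℝ) (w η : M → E4 → E4 → ℝ) :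
    S.pair w (r • η) = r * S.pair w η := by
  rw [pair_comm, S.pair_smul_left, pair_comm]

/-- the pairing as a bilinear map on forms -/
noncomputable def pairL : Form M →ₗ[ℝ] Form M →ₗ[ℝ] ℝ :=
  LinearMap.mk₂ ℝ (fun w η => S.pair w.1 η.1)
    (fun w w' η => S.pair_add_left w.2 w'.2 η.2)
    (fun r w η => S.pair_smul_left r w.1 η.1)
    (fun w η η' => S.pair_add_right w.2 η.2 η'.2)
    (fun r w η => S.pair_smul_right r w.1 η.1)

theorem pairL_apply (w η : Form M) : S.pairL w η = S.pair w.1 η.1 := rfl

theorem pair_p11_pm (w η : Form M) : S.pair (p11 S.J w.1) (pm S.J η.1) = 0 := by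
  simp [Setup.pair, S.wg_p11_pm]

theorem pair_inv_anti {w η : M → E4 → E4 → ℝ} (hw : IsAltField w) (hη : IsAltField η)
    (hi : p11 S.J w = w) (ha : pm S.J η = η) : S.pair w η = 0 := by
  simp [Setup.pair, S.wg_inv_anti hw hη hi ha]

end Setup

end Vale.Agent.P204.Full
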