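import Vale.Agent.P204.Full.Global.Chart

/-!
P204, global lemmas: smoothness of fields is read smoothness in any chart; extension of compactly
supported coefficients from a chart to the manifold (helper23).
-/

namespace Vale.Agent.P204.Full

open Set Filter
open scoped Manifold ContDiff Topology

set_option linter.unusedSectionVars false

universe u

variable {M : Type u} [TopologicalSpace M] [ChartedSpace E4 M]

theorem contDiffOn_jac_tr {c c' : OpenPartialHomeomorph M E4} (hc : IsChart c) (hc' : IsChart c')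
    (p a : Fin 4) : ContDiffOn ℝ ∞ (fun y => jac (tr c c') y p a) (ov c c') := by
  have h := (contDiffOn_tr hc hc').fderiv_of_isOpen (isOpen_ov c c') (m := ∞) (by simp)
  exact (contDiffOn_piLp 2).1 (h.clm_apply contDiffOn_const) p

theorem contDiffOn_pullC {s : Set E4} {A : E4 → Matrix (Fin 4) (Fin 4) ℝ} {W : E4 → C2}
    (hA : ∀ p a, ContDiffOn ℝ ∞ (fun y => A y p a) s) (hW : ContDiffOn ℝ ∞ W s) :
    ContDiffOn ℝ ∞ (fun y => pullC (A y) (W y)) s := by
  have hW' := fun c d => contDiffOn_pi.1 (contDiffOn_pi.1 hW c) d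
  refine contDiffOn_pi.2 fun a => contDiffOn_pi.2 fun b => ?_
  exact ContDiffOn.sum fun c _ => ContDiffOn.sum fun d _ =>
    ((hA c a).mul (hA d b)).mul (hW' c d)

/-- smoothness of the read field passes to every other chart -/
theorem IsAltField.contDiffAt_readC_trans {w : M → E4 → E4 → ℝ} (h : IsAltField w)
    {c c' : OpenPartialHomeomorph M E4} (hc : IsChart c) (hc' : IsChart c') {y : E4}
    (hy : y ∈ ov c c') (hs : ContDiffAt ℝ ∞ (readC c' w) (tr c c' y)) :
    ContDiffAt ℝ ∞ (readC c w) y := by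
  have hn := (isOpen_ov c c').mem_nhds hy
  have hW : ContDiffAt ℝ ∞ (fun z => readC c' w (tr c c' z)) y :=
    hs.comp y (contDiffAt_tr hc hc' hy)
  have hA := fun p a => (contDiffOn_jac_tr hc hc' p a).contDiffAt hn
  have hW' := fun p q => contDiffAt_pi.1 (contDiffAt_pi.1 hW p) q
  have he : readC c w =ᶠ[𝓝 y] fun z => pullC (jac (tr c c') z) (readC c' w (tr c c' z)) :=
    eventually_of_mem hn fun z hz => h.readC_tr hc hc' hz
  refine ContDiffAt.congr_of_eventuallyEq ?_ he
  refine contDiffAt_pi.2 fun a => contDiffAt_pi.2 fun b => ?_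
  exact ContDiffAt.sum fun p _ => ContDiffAt.sum fun q _ =>
    ((hA p a).mul (hA q b)).mul (hW' p q)

variable [IsManifold (𝓡 4) ∞ M]

theorem IsTwoForm.contDiffOn_readC {w : M → E4 → E4 → ℝ} (h : IsTwoForm w)
    {c : OpenPartialHomeomorph M E4} (hc : IsChart c) : ContDiffOn ℝ ∞ (readC c w) c.target := by
  intro y hy
  set x := c.symm y with hx
  have hyo : y ∈ ov c (chartAt E4 x) := ⟨hy, mem_chart_source E4 x⟩
  have ht : (chartAt E4 x) x ∈ (chartAt E4 x).target :=
    (chartAt E4 x).map_source (mem_chart_source E4 x)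
  refine (h.isAltField.contDiffAt_readC_trans hc (isChart_chartAt x) hyo ?_).contDiffWithinAt
  refine contDiffAt_pi.2 fun a => contDiffAt_pi.2 fun b => ?_
  have h2 := h.2.2 x (ev4 a) (ev4 b)
  rw [extChartAt_target_eq] at h2
  exact h2.contDiffAt ((chartAt E4 x).open_target.mem_nhds ht)

theorem IsTwoForm.contDiffAt_readC {w : M → E4 → E4 → ℝ} (h : IsTwoForm w)
    {c : OpenPartialHomeomorph M E4} (hc : IsChart c) {y : E4} (hy : y ∈ c.target) :
    ContDiffAt ℝ ∞ (readC c w) y :=
  (h.contDiffOn_readC hc).contDiffAt (c.open_target.mem_nhds hy)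

theorem IsTwoForm.contDiffOn_coef {w : M → E4 → E4 → ℝ} (h : IsTwoForm w)
    {c : OpenPartialHomeomorph M E4} (hc : IsChart c) (a b : Fin 4) :
    ContDiffOn ℝ ∞ (fun y => readC c w y a b) c.target :=
  contDiffOn_pi.1 (contDiffOn_pi.1 (h.contDiffOn_readC hc) a) b

/-- a linear antisymmetric field with smooth read in some chart around each point is a two-form -/
theorem isTwoForm_of_readC {w : M → E4 → E4 → ℝ} (h : IsAltField w)
    (hs : ∀ p : M, ∃ c : OpenPartialHomeomorph M E4,
      IsChart c ∧ p ∈ c.source ∧ ContDiffAt ℝ ∞ (readC c w) (c p)) : IsTwoForm w := by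
  refine ⟨h.1, h.2, fun x0 u v => ?_⟩
  rw [extChartAt_target_eq]
  intro y hy
  obtain ⟨c, hc, hp, hcs⟩ := hs ((chartAt E4 x0).symm y)
  have hr := h.contDiffAt_readC_trans (isChart_chartAt x0) hc ⟨hy, hp⟩ hcs
  have hr' := fun a b => contDiffAt_pi.1 (contDiffAt_pi.1 hr a) b
  have : ContDiffAt ℝ ∞
      (fun z => ∑ a, ∑ b, u a * v b * readC (chartAt E4 x0) w z a b) y :=
    ContDiffAt.sum fun a _ => ContDiffAt.sum fun b _ => contDiffAt_const.mul (hr' a b)
  exact (this.congr_of_eventuallyEq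
    (Eventually.of_forall fun z => formInChart_eq_sum h x0 z u v)).contDiffWithinAt

omit [IsManifold (𝓡 4) ∞ M] in
theorem readC_zero (c : OpenPartialHomeomorph M E4) : readC c (0 : M → E4 → E4 → ℝ) = 0 := rfl

omit [IsManifold (𝓡 4) ∞ M] in
theorem readC_add (c : OpenPartialHomeomorph M E4) (w η : M → E4 → E4 → ℝ) :
    readC c (w + η) = readC c w + readC c η := rfl

omit [IsManifold (𝓡 4) ∞ M] in
theorem readC_sub (c : OpenPartialHomeomorph M E4) (w η : M → E4 → E4 → ℝ) :
    readC c (w - η) = readC c w - readC c η := rfl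

omit [IsManifold (𝓡 4) ∞ M] in
theorem readC_neg (c : OpenPartialHomeomorph M E4) (w : M → E4 → E4 → ℝ) :
    readC c (-w) = -readC c w := rfl

omit [IsManifold (𝓡 4) ∞ M] in
theorem readC_smul (c : OpenPartialHomeomorph M E4) (r : ℝ) (w : M → E4 → E4 → ℝ) :
    readC c (r • w) = r • readC c w := rfl

omit [IsManifold (𝓡 4) ∞ M] in
theorem readC_sum {ι : Type*} (c : OpenPartialHomeomorph M E4) (s : Finset ι)
    (w : ι → M → E4 → E4 → ℝ) : readC c (∑ i ∈ s, w i) = ∑ i ∈ s, readC c (w i) := by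
  funext y a b
  simp [readC, Finset.sum_apply]

/-! ### functions -/

theorem IsSmoothFn.contDiffOn {f : M → ℝ} (hf : IsSmoothFn f) {c : OpenPartialHomeomorph M E4}
    (hc : IsChart c) : ContDiffOn ℝ ∞ (fun y => f (c.symm y)) c.target := by
  intro y hy
  set x := c.symm y with hx
  have hyo : y ∈ ov c (chartAt E4 x) := ⟨hy, mem_chart_source E4 x⟩
  have h2 := hf x
  rw [extChartAt_target_eq] at h2
  have h3 : ContDiffAt ℝ ∞ (fun z => f ((chartAt E4 x).symm (tr c (chartAt E4 x) z))) y :=
    ContDiffAt.comp (g := fun z => f ((chartAt E4 x).symm z)) (f := tr c (chartAt E4 x)) y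
      (h2.contDiffAt ((chartAt E4 x).open_target.mem_nhds ((chartAt E4 x).map_source hyo.2)))
      (contDiffAt_tr hc (isChart_chartAt x) hyo)
  refine (h3.congr_of_eventuallyEq (eventually_of_mem ((isOpen_ov _ _).mem_nhds hyo)
    fun z hz => ?_)).contDiffWithinAt
  show f (c.symm z) = f _
  rw [symm_tr hz]

theorem IsSmoothFn.contDiffAt {f : M → ℝ} (hf : IsSmoothFn f) {c : OpenPartialHomeomorph M E4}
    (hc : IsChart c) {y : E4} (hy : y ∈ c.target) : ContDiffAt ℝ ∞ (fun y => f (c.symm y)) y :=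
  (hf.contDiffOn hc).contDiffAt (c.open_target.mem_nhds hy)

theorem isSmoothFn_of_local {f : M → ℝ}
    (hs : ∀ p : M, ∃ c : OpenPartialHomeomorph M E4,
      IsChart c ∧ p ∈ c.source ∧ ContDiffAt ℝ ∞ (fun y => f (c.symm y)) (c p)) : IsSmoothFn f := by
  intro x0
  rw [extChartAt_target_eq]
  intro y hy
  obtain ⟨c, hc, hp, hcs⟩ := hs ((chartAt E4 x0).symm y)
  have hyo : y ∈ ov (chartAt E4 x0) c := ⟨hy, hp⟩
  have h3 : ContDiffAt ℝ ∞ (fun z => f (c.symm (tr (chartAt E4 x0) c z))) y :=
    ContDiffAt.comp (g := fun z => f (c.symm z)) (f := tr (chartAt E4 x0) c) y hcs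
      (contDiffAt_tr (isChart_chartAt x0) hc hyo)
  refine (h3.congr_of_eventuallyEq (eventually_of_mem ((isOpen_ov _ _).mem_nhds hyo)
    fun z hz => ?_)).contDiffWithinAt
  show f ((chartAt E4 x0).symm z) = f _
  rw [symm_tr hz]

theorem IsSmoothFn.continuous {f : M → ℝ} (hf : IsSmoothFn f) : Continuous f := by
  refine continuous_iff_continuousAt.2 fun x => ?_
  set c := chartAt E4 x
  have hx : x ∈ c.source := mem_chart_source E4 x
  have h1 : ContinuousAt (fun y => f (c.symm y)) (c x) :=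
    (hf.contDiffAt (isChart_chartAt x) (c.map_source hx)).continuousAt
  refine (h1.comp (c.continuousAt hx)).congr ?_
  filter_upwards [c.open_source.mem_nhds hx] with z hz
  show f (c.symm (c z)) = f z
  rw [c.left_inv hz]

omit [IsManifold (𝓡 4) ∞ M] in
theorem isSmoothFn_const (r : ℝ) : IsSmoothFn (fun _ : M => r) := fun _ => contDiffOn_const

omit [IsManifold (𝓡 4) ∞ M] in
theorem IsSmoothFn.add {f g : M → ℝ} (hf : IsSmoothFn f) (hg : IsSmoothFn g) :
    IsSmoothFn (fun x => f x + g x) := fun x0 => (hf x0).add (hg x0)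

omit [IsManifold (𝓡 4) ∞ M] in
theorem IsSmoothFn.sub {f g : M → ℝ} (hf : IsSmoothFn f) (hg : IsSmoothFn g) :
    IsSmoothFn (fun x => f x - g x) := fun x0 => (hf x0).sub (hg x0)

omit [IsManifold (𝓡 4) ∞ M] in
theorem IsSmoothFn.mul {f g : M → ℝ} (hf : IsSmoothFn f) (hg : IsSmoothFn g) :
    IsSmoothFn (fun x => f x * g x) := fun x0 => (hf x0).mul (hg x0)

omit [IsManifold (𝓡 4) ∞ M] in
theorem IsSmoothFn.const_mul {f : M → ℝ} (r : ℝ) (hf : IsSmoothFn f) :
    IsSmoothFn (fun x => r * f x) := (isSmoothFn_const r).mul hf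

omit [IsManifold (𝓡 4) ∞ M] in
theorem IsSmoothFn.comp {f : M → ℝ} (hf : IsSmoothFn f) {g : ℝ → ℝ} (hg : ContDiff ℝ ∞ g) :
    IsSmoothFn (fun x => g (f x)) := fun x0 => hg.comp_contDiffOn (hf x0)

omit [IsManifold (𝓡 4) ∞ M] in
theorem IsSmoothFn.sum {ι : Type*} (s : Finset ι) {f : ι → M → ℝ}
    (hf : ∀ i ∈ s, IsSmoothFn (f i)) : IsSmoothFn (fun x => ∑ i ∈ s, f i x) :=
  fun x0 => ContDiffOn.sum fun i hi => hf i hi x0

/-- multiplication of a two-form by a function -/
def smulFn (f : M → ℝ) (w : M → E4 → E4 → ℝ) : M → E4 → E4 → ℝ := fun x u v => f x * w x u v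

omit [IsManifold (𝓡 4) ∞ M] in
theorem IsTwoForm.smulFn {f : M → ℝ} {w : M → E4 → E4 → ℝ} (hw : IsTwoForm w) (hf : IsSmoothFn f) :
    IsTwoForm (smulFn f w) := by
  refine ⟨fun x u => ⟨fun a b => ?_, fun r a => ?_⟩, fun x u v => ?_, fun x0 u v => ?_⟩
  · simp [Full.smulFn, (hw.1 x u).map_add, mul_add]
  · simp [Full.smulFn, (hw.1 x u).map_smul]; ring
  · simp [Full.smulFn, hw.2.1 x u v]
  · exact (hf x0).mul (hw.2.2 x0 u v)

omit [IsManifold (𝓡 4) ∞ M] in
theorem readC_smulFn (c : OpenPartialHomeomorph M E4) (f : M → ℝ) (w : M → E4 → E4 → ℝ) (y : E4) :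
    readC c (smulFn f w) y = f (c.symm y) • readC c w y := rfl

/-- multiplication by a smooth function as a linear map on forms -/
noncomputable def fmul (f : M → ℝ) (hf : IsSmoothFn f) : Form M →ₗ[ℝ] Form M where
  toFun w := ⟨smulFn f w.1, w.2.smulFn hf⟩
  map_add' w η := Subtype.ext (funext fun x => funext fun u => funext fun v =>
    show f x * (w.1 x u v + η.1 x u v) = _ from mul_add _ _ _)
  map_smul' r w := Subtype.ext (funext fun x => funext fun u => funext fun v =>
    show f x * (r * w.1 x u v) = r * (f x * w.1 x u v) from mul_left_comm _ _ _)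

omit [IsManifold (𝓡 4) ∞ M] in
theorem fmul_coe (f : M → ℝ) (hf : IsSmoothFn f) (w : Form M) :
    (fmul f hf w).1 = smulFn f w.1 := rfl

/-! ### one-forms -/

theorem contDiffAt_read1_trans {α : M → E4 → ℝ} (hα : ∀ x, IsLinearMap ℝ (α x))
    {c c' : OpenPartialHomeomorph M E4} (hc : IsChart c) (hc' : IsChart c') {y : E4}
    (hy : y ∈ ov c c') (hs : ContDiffAt ℝ ∞ (read1 c' α) (tr c c' y)) :
    ContDiffAt ℝ ∞ (read1 c α) y := by
  have hn := (isOpen_ov c c').mem_nhds hy
  have hW : ContDiffAt ℝ ∞ (fun z => read1 c' α (tr c c' z)) y :=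
    hs.comp y (contDiffAt_tr hc hc' hy)
  have hA := fun p a => (contDiffOn_jac_tr hc hc' p a).contDiffAt hn
  refine contDiffAt_pi.2 fun a => ?_
  refine ContDiffAt.congr_of_eventuallyEq
    (f := fun z => ∑ p, jac (tr c c') z p a * read1 c' α (tr c c' z) p)
    (ContDiffAt.sum fun p _ => (hA p a).mul (contDiffAt_pi.1 hW p)) ?_
  exact eventually_of_mem hn fun z hz => read1_tr hα hc hc' hz a

theorem IsOneForm.contDiffOn_read1 {α : M → E4 → ℝ} (h : IsOneForm α)
    {c : OpenPartialHomeomorph M E4} (hc : IsChart c) : ContDiffOn ℝ ∞ (read1 c α) c.target := by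
  intro y hy
  set x := c.symm y with hx
  have hyo : y ∈ ov c (chartAt E4 x) := ⟨hy, mem_chart_source E4 x⟩
  have ht : (chartAt E4 x) x ∈ (chartAt E4 x).target :=
    (chartAt E4 x).map_source (mem_chart_source E4 x)
  refine (contDiffAt_read1_trans h.1 hc (isChart_chartAt x) hyo ?_).contDiffWithinAt
  refine contDiffAt_pi.2 fun a => ?_
  have h2 := h.2 x (ev4 a)
  rw [extChartAt_target_eq] at h2
  exact h2.contDiffAt ((chartAt E4 x).open_target.mem_nhds ht)

omit [IsManifold (𝓡 4) ∞ M] in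
theorem alpha_dInv_eq_sum {α : M → E4 → ℝ} (hα : ∀ x, IsLinearMap ℝ (α x))
    (c : OpenPartialHomeomorph M E4) (y v : E4) :
    α (c.symm y) (dInv c y v) = ∑ a, v a * read1 c α y a := by
  let L : E4 →ₗ[ℝ] ℝ := ((hα (c.symm y)).mk' _).comp (dInvL c y).toLinearMap
  show L v = _
  conv_lhs => rw [← sum_ev4 v, map_sum]
  exact Finset.sum_congr rfl fun a _ => by rw [map_smul, smul_eq_mul]; rfl

theorem isOneForm_of_read1 {α : M → E4 → ℝ} (hα : ∀ x, IsLinearMap ℝ (α x))
    (hs : ∀ p : M, ∃ c : OpenPartialHomeomorph M E4,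
      IsChart c ∧ p ∈ c.source ∧ ContDiffAt ℝ ∞ (read1 c α) (c p)) : IsOneForm α := by
  refine ⟨hα, fun x0 v => ?_⟩
  rw [extChartAt_target_eq]
  intro y hy
  obtain ⟨c, hc, hp, hcs⟩ := hs ((chartAt E4 x0).symm y)
  have hr := contDiffAt_read1_trans hα (isChart_chartAt x0) hc ⟨hy, hp⟩ hcs
  have : ContDiffAt ℝ ∞ (fun z => ∑ a, v a * read1 (chartAt E4 x0) α z a) y :=
    ContDiffAt.sum fun a _ => contDiffAt_const.mul (contDiffAt_pi.1 hr a)
  exact (this.congr_of_eventuallyEq
    (Eventually.of_forall fun z => alpha_dInv_eq_sum hα (chartAt E4 x0) z v)).contDiffWithinAt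

/-! ### extension from a chart -/

/-- coefficients in a chart as a field, zero outside the chart -/
noncomputable def extC (c : OpenPartialHomeomorph M E4) (W : E4 → C2) : M → E4 → E4 → ℝ :=
  c.source.indicator (pushC c W)

/-- one-form coefficients in a chart as a field, zero outside the chart -/
noncomputable def ext1 (c : OpenPartialHomeomorph M E4) (A : E4 → C1) : M → E4 → ℝ :=
  c.source.indicator fun x v => ∑ a, dMap c x v a * A (c x) a

/-- a function in a chart, zero outside the chart -/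
noncomputable def extF (c : OpenPartialHomeomorph M E4) (f : E4 → ℝ) : M → ℝ :=
  c.source.indicator fun x => f (c x)

omit [IsManifold (𝓡 4) ∞ M] in
theorem isAltField_extC (c : OpenPartialHomeomorph M E4) {W : E4 → C2} (hW : ∀ y, Anti (W y)) :
    IsAltField (extC c W) := by
  refine ⟨fun x u => ?_, fun x u v => ?_⟩
  · by_cases hx : x ∈ c.source
    · rw [extC, indicator_of_mem hx]
      constructor <;> intros <;>
        simp only [pushC, ← dMapL_apply, map_add, map_smul, PiLp.add_apply, PiLp.smul_apply,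
          smul_eq_mul, mul_add, add_mul, Finset.sum_add_distrib, Finset.mul_sum]
      exact Finset.sum_congr rfl fun a _ => Finset.sum_congr rfl fun b _ => by ring
    · rw [extC, indicator_of_notMem hx]
      constructor <;> intros <;> simp
  · by_cases hx : x ∈ c.source
    · simp only [extC, indicator_of_mem hx, pushC]
      rw [Finset.sum_comm, ← Finset.sum_neg_distrib]
      refine Finset.sum_congr rfl fun a _ => ?_
      rw [← Finset.sum_neg_distrib]
      exact Finset.sum_congr rfl fun b _ => by rw [hW (c x) a b]; ring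
    · simp [extC, indicator_of_notMem hx]

omit [IsManifold (𝓡 4) ∞ M] in
theorem readC_extC {c : OpenPartialHomeomorph M E4} (hc : IsChart c) (W : E4 → C2) {y : E4}
    (hy : y ∈ c.target) : readC c (extC c W) y = W y := by
  funext a b
  simp [readC, extC, indicator_of_mem (c.map_target hy), pushC, dMap_dInv hc hy,
    c.right_inv hy, ev4_coord]

omit [IsManifold (𝓡 4) ∞ M] in
theorem read1_ext1 {c : OpenPartialHomeomorph M E4} (hc : IsChart c) (A : E4 → C1) {y : E4}
    (hy : y ∈ c.target) : read1 c (ext1 c A) y = A y := by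
  funext a
  simp [read1, ext1, indicator_of_mem (c.map_target hy), dMap_dInv hc hy,
    c.right_inv hy, ev4_coord]

omit [IsManifold (𝓡 4) ∞ M] in
theorem extF_symm (c : OpenPartialHomeomorph M E4) (f : E4 → ℝ) {y : E4} (hy : y ∈ c.target) :
    extF c f (c.symm y) = f y := by
  simp [extF, indicator_of_mem (c.map_target hy), c.right_inv hy]

omit [IsManifold (𝓡 4) ∞ M] in
/-- the complement of the image of a compact subset of the target is a neighbourhood -/
theorem eventually_eq_zero_of_notMem [T2Space M] {c : OpenPartialHomeomorph M E4} {K : Set E4}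
    (hK : IsCompact K) (hKt : K ⊆ c.target) {G : Type*} [Zero G] {F : M → G}
    (h0 : ∀ x ∈ c.source, c x ∉ K → F x = 0) (h1 : ∀ x ∉ c.source, F x = 0) {p : M}
    (hp : p ∉ c.source) : F =ᶠ[𝓝 p] 0 := by
  have hcl : IsClosed (c.symm '' K) := (hK.image_of_continuousOn
    (c.symm.continuousOn.mono hKt)).isClosed
  have hpn : p ∉ c.symm '' K := by
    rintro ⟨y, hy, rfl⟩
    exact hp (c.map_target (hKt hy))
  filter_upwards [hcl.isOpen_compl.mem_nhds hpn] with x hx
  by_cases hxs : x ∈ c.source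
  · exact h0 x hxs fun hK' => hx ⟨c x, hK', c.left_inv hxs⟩
  · exact h1 x hxs

omit [IsManifold (𝓡 4) ∞ M] in
theorem eventually_nhds_chart {c : OpenPartialHomeomorph M E4} {p : M} (hp : p ∈ c.source)
    {P : M → Prop} (h : ∀ᶠ x in 𝓝 p, P x) : ∀ᶠ y in 𝓝 (c p), P (c.symm y) :=
  (show Tendsto c.symm (𝓝 (c p)) (𝓝 p) by
    conv_rhs => rw [← c.left_inv hp]
    exact c.symm.continuousAt (c.map_source hp)).eventually h

theorem isTwoForm_extC [T2Space M] {c : OpenPartialHomeomorph M E4} (hc : IsChart c)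
    {K : Set E4} (hK : IsCompact K) (hKt : K ⊆ c.target) {W : E4 → C2} (hanti : ∀ y, Anti (W y))
    (hW : ContDiffOn ℝ ∞ W c.target) (h0 : ∀ y ∈ c.target, y ∉ K → W y = 0) :
    IsTwoForm (extC c W) := by
  refine isTwoForm_of_readC (isAltField_extC c hanti) fun p => ?_
  by_cases hp : p ∈ c.source
  · have ht := c.map_source hp
    exact ⟨c, hc, hp, (hW.contDiffAt (c.open_target.mem_nhds ht)).congr_of_eventuallyEq
      (eventually_of_mem (c.open_target.mem_nhds ht) fun y hy => readC_extC hc W hy)⟩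
  · have hz : extC c W =ᶠ[𝓝 p] 0 := eventually_eq_zero_of_notMem hK hKt (fun x hx hxK => by
      funext u v
      simp [indicator_of_mem hx, pushC, h0 _ (c.map_source hx) hxK]) (fun x hx =>
      indicator_of_notMem hx _) hp
    refine ⟨chartAt E4 p, isChart_chartAt p, mem_chart_source E4 p,
      (contDiffAt_const (c := (0 : C2))).congr_of_eventuallyEq ?_⟩
    filter_upwards [eventually_nhds_chart (mem_chart_source E4 p) hz] with y hy
    funext a b
    simp only [readC, hy]
    rfl

theorem isOneForm_ext1 [T2Space M] {c : OpenPartialHomeomorph M E4} (hc : IsChart c)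
    {K : Set E4} (hK : IsCompact K) (hKt : K ⊆ c.target) {A : E4 → C1}
    (hA : ContDiffOn ℝ ∞ A c.target) (h0 : ∀ y ∈ c.target, y ∉ K → A y = 0) :
    IsOneForm (ext1 c A) := by
  have hlin : ∀ x, IsLinearMap ℝ (ext1 c A x) := fun x => by
    by_cases hx : x ∈ c.source
    · rw [ext1, indicator_of_mem hx]
      constructor <;> intros <;>
        simp only [← dMapL_apply, map_add, map_smul, PiLp.add_apply, PiLp.smul_apply,
          smul_eq_mul, add_mul, Finset.sum_add_distrib, Finset.mul_sum, mul_assoc]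
    · rw [ext1, indicator_of_notMem hx]
      constructor <;> intros <;> simp
  refine isOneForm_of_read1 hlin fun p => ?_
  by_cases hp : p ∈ c.source
  · have ht := c.map_source hp
    exact ⟨c, hc, hp, (hA.contDiffAt (c.open_target.mem_nhds ht)).congr_of_eventuallyEq
      (eventually_of_mem (c.open_target.mem_nhds ht) fun y hy => read1_ext1 hc A hy)⟩
  · have hz : ext1 c A =ᶠ[𝓝 p] 0 := eventually_eq_zero_of_notMem hK hKt (fun x hx hxK => by
      funext v
      simp [indicator_of_mem hx, h0 _ (c.map_source hx) hxK]) (fun x hx =>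
      indicator_of_notMem hx _) hp
    refine ⟨chartAt E4 p, isChart_chartAt p, mem_chart_source E4 p,
      (contDiffAt_const (c := (0 : C1))).congr_of_eventuallyEq ?_⟩
    filter_upwards [eventually_nhds_chart (mem_chart_source E4 p) hz] with y hy
    funext a
    simp only [read1, hy]
    rfl

theorem isSmoothFn_extF [T2Space M] {c : OpenPartialHomeomorph M E4} (hc : IsChart c)
    {K : Set E4} (hK : IsCompact K) (hKt : K ⊆ c.target) {f : E4 → ℝ}
    (hf : ContDiffOn ℝ ∞ f c.target) (h0 : ∀ y ∈ c.target, y ∉ K → f y = 0) :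
    IsSmoothFn (extF c f) := by
  refine isSmoothFn_of_local fun p => ?_
  by_cases hp : p ∈ c.source
  · have ht := c.map_source hp
    exact ⟨c, hc, hp, (hf.contDiffAt (c.open_target.mem_nhds ht)).congr_of_eventuallyEq
      (eventually_of_mem (c.open_target.mem_nhds ht) fun y hy => extF_symm c f hy)⟩
  · have hz : extF c f =ᶠ[𝓝 p] 0 := eventually_eq_zero_of_notMem hK hKt (fun x hx hxK => by
      simp [indicator_of_mem hx, h0 _ (c.map_source hx) hxK]) (fun x hx =>
      indicator_of_notMem hx _) hp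
    refine ⟨chartAt E4 p, isChart_chartAt p, mem_chart_source E4 p,
      (contDiffAt_const (c := (0 : ℝ))).congr_of_eventuallyEq ?_⟩
    filter_upwards [eventually_nhds_chart (mem_chart_source E4 p) hz] with y hy
    simpa using hy

end Vale.Agent.P204.Full
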