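import Vale.Agent.P204.Full.Global.Read

/-!
P204, global lemmas: exterior derivatives in charts of the maximal atlas, closed and exact forms
(helper23).
-/

namespace Vale.Agent.P204.Full

open Set Filter
open scoped Manifold ContDiff Topology

set_option linter.unusedSectionVars false

universe u

/-- flat naturality of the differential of a one-form -/
theorem d1_pull_one {α : E4 → C1} {Φ : E4 → E4} {y : E4}
    (hα : DifferentiableAt ℝ α (Φ y)) (hΦ : ContDiffAt ℝ 2 Φ y) :
    d1 (fun z a => ∑ p, jac Φ z p a * α (Φ z) p) y = pullC (jac Φ y) (d1 α (Φ y)) := by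
  set β : E4 → (E4 →L[ℝ] ℝ) := fun z => ∑ p, α z p • (EuclideanSpace.proj p : E4 →L[ℝ] ℝ) with hβ
  have hβd : DifferentiableAt ℝ β (Φ y) :=
    DifferentiableAt.fun_sum fun p _ => ((differentiableAt_pi.1 hα p)).smul_const _
  have hA : HasFDerivAt (fderiv ℝ Φ) (fderiv ℝ (fderiv ℝ Φ) y) y :=
    ((hΦ.fderiv_right (m := 1) (by norm_num)).differentiableAt (by norm_num)).hasFDerivAt
  have hΦd : HasFDerivAt Φ (fderiv ℝ Φ y) y := (hΦ.differentiableAt (by norm_num)).hasFDerivAt
  have happ : ∀ v : E4, HasFDerivAt (fun z => fderiv ℝ Φ z v)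
      ((fderiv ℝ (fderiv ℝ Φ) y).flip v) y := fun v => by
    simpa using hA.clm_apply (hasFDerivAt_const v y)
  have hcomp : HasFDerivAt (fun z => β (Φ z)) ((fderiv ℝ β (Φ y)).comp (fderiv ℝ Φ y)) y :=
    HasFDerivAt.comp (g := β) (f := Φ) y hβd.hasFDerivAt hΦd
  have hg : ∀ a b : Fin 4, pd (fun z => ∑ p, jac Φ z p a * α (Φ z) p) b y =
      fderiv ℝ β (Φ y) (fderiv ℝ Φ y (ev4 b)) (fderiv ℝ Φ y (ev4 a)) +
        β (Φ y) (fderiv ℝ (fderiv ℝ Φ) y (ev4 b) (ev4 a)) := by
    intro a b
    have he : (fun z => ∑ p, jac Φ z p a * α (Φ z) p) =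
        fun z => β (Φ z) (fderiv ℝ Φ z (ev4 a)) := by
      funext z
      simp [hβ, jac, mul_comm]
    rw [pd, he, (hcomp.clm_apply (happ (ev4 a))).fderiv]
    simp [add_comm]
  have hpd : ∀ p q : Fin 4, fderiv ℝ β (Φ y) (ev4 p) (ev4 q) = pd (fun z => α z q) p (Φ y) := by
    intro p q
    have h := (hβd.hasFDerivAt.clm_apply (hasFDerivAt_const (ev4 q) (Φ y))).fderiv
    have he : (fun z => β z (ev4 q)) = fun z => α z q := by
      funext z
      simp [hβ, ev4]
    rw [he] at h
    rw [pd, h]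
    simp
  have hexp : ∀ u v : E4, fderiv ℝ β (Φ y) u v =
      ∑ p, ∑ q, u p * v q * pd (fun z => α z q) p (Φ y) := by
    intro u v
    rw [bilinear_eq_bilinOf (fun u v => fderiv ℝ β (Φ y) u v)
      (fun v => ((fderiv ℝ β (Φ y)).flip v).toLinearMap.isLinear)
      (fun u => (fderiv ℝ β (Φ y) u).toLinearMap.isLinear) u v, bilinOf_apply]
    refine Finset.sum_congr rfl fun p _ => Finset.sum_congr rfl fun q _ => ?_
    rw [mul_comm (u p * v q), ← hpd p q]
    rfl
  funext a b
  have hs : fderiv ℝ (fderiv ℝ Φ) y (ev4 a) (ev4 b) = fderiv ℝ (fderiv ℝ Φ) y (ev4 b) (ev4 a) :=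
    (hΦ.isSymmSndFDerivAt (by simp)).eq _ _
  show pd (fun z => ∑ p, jac Φ z p b * α (Φ z) p) a y -
      pd (fun z => ∑ p, jac Φ z p a * α (Φ z) p) b y = _
  rw [hg, hg, hs, hexp, hexp, add_sub_add_right_eq_sub]
  simp only [pullC, jac, d1, mul_sub, Finset.sum_sub_distrib]
  congr 1
  rw [Finset.sum_comm]
  exact Finset.sum_congr rfl fun p _ => Finset.sum_congr rfl fun q _ => by ring

/-- `d ∘ d = 0` -/
theorem d2_d1 {α : E4 → C1} {y : E4} (hα : ContDiffAt ℝ 2 α y) (a b c : Fin 4) :
    d2 (d1 α) y a b c = 0 := by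
  have hc : ∀ q, ContDiffAt ℝ 2 (fun z => α z q) y := fun q => contDiffAt_pi.1 hα q
  have hd : ∀ q r : Fin 4, DifferentiableAt ℝ (fun z => pd (fun z => α z q) r z) y := fun q r =>
    (((hc q).fderiv_right (m := 1) (by norm_num)).differentiableAt (by norm_num)).clm_apply
      (differentiableAt_const _)
  have hh : ∀ q r t : Fin 4, pd (fun z => pd (fun z => α z q) r z) t y =
      fderiv ℝ (fderiv ℝ (fun z => α z q)) y (ev4 t) (ev4 r) := fun q r t => by
    have h := (((hc q).fderiv_right (m := 1) (by norm_num)).differentiableAt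
      (by norm_num)).hasFDerivAt.clm_apply (hasFDerivAt_const (ev4 r) y)
    show fderiv ℝ (fun z => fderiv ℝ (fun z => α z q) z (ev4 r)) y (ev4 t) = _
    rw [h.fderiv]
    simp
  have hs : ∀ q (u v : E4), fderiv ℝ (fderiv ℝ (fun z => α z q)) y u v =
      fderiv ℝ (fderiv ℝ (fun z => α z q)) y v u := fun q u v =>
    ((hc q).isSymmSndFDerivAt (by simp)).eq u v
  have hsub : ∀ q r t : Fin 4, pd (fun z => d1 α z q r) t y =
      pd (fun z => pd (fun z => α z r) q z) t y - pd (fun z => pd (fun z => α z q) r z) t y := by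
    intro q r t
    show fderiv ℝ (fun z => pd (fun z => α z r) q z - pd (fun z => α z q) r z) y (ev4 t) = _
    rw [fderiv_fun_sub (hd r q) (hd q r)]
    rfl
  simp only [d2, hsub, hh]
  rw [hs c (ev4 b), hs b (ev4 a), hs a (ev4 c)]
  ring

variable {M : Type u} [TopologicalSpace M] [ChartedSpace E4 M]

/-- the differential of a one-form, computed in the distinguished chart at each point -/
noncomputable def dOne (α : M → E4 → ℝ) : M → E4 → E4 → ℝ := fun x u v =>
  ∑ a, ∑ b, u a * v b * d1 (read1 (chartAt E4 x) α) (chartAt E4 x x) a b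

omit [ChartedSpace E4 M] in
theorem anti_d1 (A : E4 → C1) (y : E4) : Anti (d1 A y) := fun a b => by
  simp only [d1]
  ring

theorem isAltField_dOne (α : M → E4 → ℝ) : IsAltField (dOne α) := by
  refine ⟨fun x u => ?_, fun x u v => ?_⟩
  · constructor <;> intros <;>
      simp only [dOne, PiLp.add_apply, PiLp.smul_apply, smul_eq_mul, mul_add, add_mul,
        Finset.sum_add_distrib, Finset.mul_sum]
    exact Finset.sum_congr rfl fun a _ => Finset.sum_congr rfl fun b _ => by ring
  · simp only [dOne]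
    rw [Finset.sum_comm, ← Finset.sum_neg_distrib]
    refine Finset.sum_congr rfl fun a _ => ?_
    rw [← Finset.sum_neg_distrib]
    exact Finset.sum_congr rfl fun b _ => by rw [anti_d1 _ _ a b]; ring

variable [IsManifold (𝓡 4) ∞ M]

theorem d1_read1_tr {α : M → E4 → ℝ} (hα : IsOneForm α) {c c' : OpenPartialHomeomorph M E4}
    (hc : IsChart c) (hc' : IsChart c') {y : E4} (hy : y ∈ ov c c') :
    d1 (read1 c α) y = pullC (jac (tr c c') y) (d1 (read1 c' α) (tr c c' y)) := by
  rw [← d1_pull_one (((hα.contDiffOn_read1 hc').differentiableOn (by decide)).differentiableAt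
    (c'.open_target.mem_nhds (tr_mem_ov hy).1))
    ((contDiffAt_tr hc hc' hy).of_le (WithTop.coe_le_coe.mpr le_top))]
  funext a b
  have he : ∀ q : Fin 4, (fun z => read1 c α z q) =ᶠ[𝓝 y]
      fun z => ∑ p, jac (tr c c') z p q * read1 c' α (tr c c' z) p := fun q =>
    eventually_of_mem ((isOpen_ov c c').mem_nhds hy) fun z hz => read1_tr hα.1 hc hc' hz q
  simp only [d1, pd]
  rw [(he b).fderiv_eq, (he a).fderiv_eq]

theorem readC_dOne {α : M → E4 → ℝ} (hα : IsOneForm α) {c : OpenPartialHomeomorph M E4}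
    (hc : IsChart c) {y : E4} (hy : y ∈ c.target) : readC c (dOne α) y = d1 (read1 c α) y := by
  set x := c.symm y with hx
  have hov : y ∈ ov c (chartAt E4 x) := ⟨hy, mem_chart_source E4 x⟩
  rw [d1_read1_tr hα hc (isChart_chartAt x) hov]
  have h : ∀ v, dInv c y v = fderiv ℝ (tr c (chartAt E4 x)) y v := fun v => by
    rw [← dMap_dInv_eq_fderiv hc (isChart_chartAt x) hov, dMap_chartAt_self]
  funext a b
  simp only [readC, dOne, h]
  rfl

theorem isTwoForm_dOne {α : M → E4 → ℝ} (hα : IsOneForm α) : IsTwoForm (dOne α) := by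
  refine isTwoForm_of_readC (isAltField_dOne α) fun p => ?_
  have hc := isChart_chartAt (M := M) p
  have hn := (chartAt E4 p).open_target.mem_nhds ((chartAt E4 p).map_source (mem_chart_source E4 p))
  refine ⟨_, hc, mem_chart_source E4 p, ContDiffAt.congr_of_eventuallyEq ?_
    (eventually_of_mem hn fun z hz => readC_dOne hα hc hz)⟩
  have hd : ∀ q r : Fin 4, ContDiffAt ℝ ∞
      (fun z => pd (fun z => read1 (chartAt E4 p) α z q) r z) (chartAt E4 p p) := fun q r =>
    (((contDiffOn_pi.1 (hα.contDiffOn_read1 hc) q).fderiv_of_isOpen (chartAt E4 p).open_target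
      (m := ∞) (by simp)).clm_apply contDiffOn_const).contDiffAt hn
  exact contDiffAt_pi.2 fun a => contDiffAt_pi.2 fun b => (hd b a).sub (hd a b)

theorem dOne_self_chart (α : M → E4 → ℝ) (hα : ∀ x, IsLinearMap ℝ (α x)) {x0 : M} {y : E4}
    (hd : ∀ a, DifferentiableAt ℝ (fun z => read1 (chartAt E4 x0) α z a) y) (u v : E4) :
    fderiv ℝ (fun z => α ((extChartAt (𝓡 4) x0).symm z) (fromChart x0 z v)) y u -
        fderiv ℝ (fun z => α ((extChartAt (𝓡 4) x0).symm z) (fromChart x0 z u)) y v =
      ∑ a, ∑ b, u a * v b * d1 (read1 (chartAt E4 x0) α) y a b := by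
  have h : ∀ p q : E4,
      fderiv ℝ (fun z => α ((extChartAt (𝓡 4) x0).symm z) (fromChart x0 z q)) y p =
        ∑ a, ∑ b, p a * q b * pd (fun z => read1 (chartAt E4 x0) α z b) a y := by
    intro p q
    rw [show (fun z => α ((extChartAt (𝓡 4) x0).symm z) (fromChart x0 z q)) =
      fun z => ∑ b, q b * read1 (chartAt E4 x0) α z b from
        funext fun z => alpha_dInv_eq_sum hα _ z q]
    rw [fderiv_fun_sum fun b _ => (hd b).const_mul _]
    simp only [sum_apply, fderiv_const_mul (hd _),
      smul_apply, smul_eq_mul]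
    rw [Finset.sum_comm]
    refine Finset.sum_congr rfl fun b _ => ?_
    conv_lhs => rw [← sum_ev4 p, map_sum, Finset.mul_sum]
    exact Finset.sum_congr rfl fun a _ => by rw [map_smul, smul_eq_mul, pd]; ring
  rw [h, h, Finset.sum_comm (f := fun a b => v a * u b * pd _ a y), ← Finset.sum_sub_distrib]
  refine Finset.sum_congr rfl fun a _ => ?_
  rw [← Finset.sum_sub_distrib]
  exact Finset.sum_congr rfl fun b _ => by simp only [d1]; ring

theorem isExactForm_iff {w : M → E4 → E4 → ℝ} :
    IsExactForm w ↔ ∃ α, IsOneForm α ∧ w = dOne α := by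
  have hd : ∀ α : M → E4 → ℝ, IsOneForm α → ∀ x0 : M, ∀ y ∈ (chartAt E4 x0).target,
      ∀ a, DifferentiableAt ℝ (fun z => read1 (chartAt E4 x0) α z a) y := fun α hα x0 y hy a =>
    ((contDiffOn_pi.1 (hα.contDiffOn_read1 (isChart_chartAt x0)) a).differentiableOn
      (by decide)).differentiableAt ((chartAt E4 x0).open_target.mem_nhds hy)
  constructor
  · rintro ⟨α, hα, h⟩
    refine ⟨α, hα, funext fun x => funext fun u => funext fun v => ?_⟩
    have hx : x ∈ (chartAt E4 x).source := mem_chart_source E4 x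
    have ht := (chartAt E4 x).map_source hx
    have h1 := h x (chartAt E4 x x) (by rw [extChartAt_target_eq]; exact ht) u v
    rw [dOne_self_chart α hα.1 (hd α hα x _ ht)] at h1
    have hs : ∀ q, fromChart x (chartAt E4 x x) q = q := fun q => by
      conv_lhs => rw [← dMap_chartAt_self x q, fromChart_eq_dInv]
      exact dInv_dMap (isChart_chartAt x) hx q
    simp only [formInChart, hs, extChartAt_symm_eq, (chartAt E4 x).left_inv hx] at h1
    exact h1
  · rintro ⟨α, hα, rfl⟩
    refine ⟨α, hα, fun x0 y hy u v => ?_⟩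
    rw [extChartAt_target_eq] at hy
    rw [dOne_self_chart α hα.1 (hd α hα x0 y hy), formInChart_eq_sum (isAltField_dOne α)]
    simp only [readC_dOne hα (isChart_chartAt x0) hy]

theorem isExactForm_dOne {α : M → E4 → ℝ} (hα : IsOneForm α) : IsExactForm (dOne α) :=
  isExactForm_iff.2 ⟨α, hα, rfl⟩

theorem IsExactForm.isTwoForm {w : M → E4 → E4 → ℝ} (h : IsExactForm w) : IsTwoForm w := by
  obtain ⟨α, hα, rfl⟩ := isExactForm_iff.1 h
  exact isTwoForm_dOne hα

/-! ### closed forms -/

omit [IsManifold (𝓡 4) ∞ M] in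
theorem d2_readC_chartAt (w : M → E4 → E4 → ℝ) (x0 : M) (y : E4) (a b c : Fin 4) :
    d2 (readC (chartAt E4 x0) w) y a b c = cycSum w x0 y (ev4 a) (ev4 b) (ev4 c) := rfl

theorem d2_readC_eq_cycSum {w : M → E4 → E4 → ℝ} (hw : IsTwoForm w)
    {c : OpenPartialHomeomorph M E4} (hc : IsChart c) {x : M} {y : E4}
    (hy : y ∈ ov c (chartAt E4 x)) (i j k : Fin 4) :
    d2 (readC c w) y i j k = cycSum w x (tr c (chartAt E4 x) y)
      (fderiv ℝ (tr c (chartAt E4 x)) y (ev4 i)) (fderiv ℝ (tr c (chartAt E4 x)) y (ev4 j))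
      (fderiv ℝ (tr c (chartAt E4 x)) y (ev4 k)) := by
  have hc' := isChart_chartAt (M := M) x
  set τ := tr c (chartAt E4 x) with hτdef
  have ht : τ y ∈ (extChartAt (𝓡 4) x).target := by
    rw [extChartAt_target_eq]
    exact (tr_mem_ov hy).1
  have hτ : ContDiffAt ℝ 2 τ y :=
    (contDiffAt_tr hc hc' hy).of_le (WithTop.coe_le_coe.mpr le_top)
  rw [cycSum_eq_fderiv_b hw x ht, ← cyclic_fderiv_pull (differentiableAt_bInChart hw x ht) hτ
    (fun a b => by rw [bInChart_apply hw, bInChart_apply hw, formInChart_anti hw])]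
  have he : ∀ a b : Fin 4, (fun z => readC c w z a b) =ᶠ[𝓝 y] fun z =>
      bInChart w x (τ z) (fderiv ℝ τ z (ev4 a)) (fderiv ℝ τ z (ev4 b)) := by
    intro a b
    filter_upwards [(isOpen_ov c (chartAt E4 x)).mem_nhds hy] with z hz
    rw [bInChart_apply hw]
    show w (c.symm z) (dInv c z (ev4 a)) (dInv c z (ev4 b)) = _
    rw [← dInv_tr hc hc' hz, ← dInv_tr hc hc' hz, ← symm_tr hz]
    rfl
  simp only [d2, pd]
  rw [(he j k).fderiv_eq, (he k i).fderiv_eq, (he i j).fderiv_eq]

theorem IsClosedForm.d2_readC {w : M → E4 → E4 → ℝ} (hcl : IsClosedForm w) (hw : IsTwoForm w)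
    {c : OpenPartialHomeomorph M E4} (hc : IsChart c) {y : E4} (hy : y ∈ c.target)
    (i j k : Fin 4) : d2 (readC c w) y i j k = 0 := by
  have hov : y ∈ ov c (chartAt E4 (c.symm y)) := ⟨hy, mem_chart_source E4 _⟩
  rw [d2_readC_eq_cycSum hw hc hov]
  exact hcl _ _ (by rw [extChartAt_target_eq]; exact (tr_mem_ov hov).1) _ _ _

theorem cycSum_eq_sum {w : M → E4 → E4 → ℝ} (hw : IsTwoForm w) (x0 : M) {y : E4}
    (hy : y ∈ (chartAt E4 x0).target) (u v q : E4) :
    cycSum w x0 y u v q =
      ∑ a, ∑ b, ∑ c, u a * v b * q c * d2 (readC (chartAt E4 x0) w) y a b c := by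
  have hy' : y ∈ (extChartAt (𝓡 4) x0).target := by rwa [extChartAt_target_eq]
  set B := fderiv ℝ (bInChart w x0) y with hB
  have hexp : ∀ p r t : E4, B p r t = ∑ a, ∑ b, ∑ c, p a * r b * t c * B (ev4 a) (ev4 b) (ev4 c) := by
    intro p r t
    have e1 : B p r t = ∑ a, p a * B (ev4 a) r t := by
      conv_lhs => rw [← sum_ev4 p]
      simp
    have e2 : ∀ e : E4, B e r t = ∑ b, r b * B e (ev4 b) t := fun e => by
      conv_lhs => rw [← sum_ev4 r]
      simp
    have e3 : ∀ e e' : E4, B e e' t = ∑ c, t c * B e e' (ev4 c) := fun e e' => by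
      conv_lhs => rw [← sum_ev4 t]
      simp
    rw [e1]
    simp only [e2, e3, Finset.mul_sum]
    exact Finset.sum_congr rfl fun a _ => Finset.sum_congr rfl fun b _ =>
      Finset.sum_congr rfl fun c _ => by ring
  simp only [d2_readC_chartAt, cycSum_eq_fderiv_b hw x0 hy', ← hB, mul_add,
    Finset.sum_add_distrib]
  rw [hexp u v q, hexp v q u, hexp q u v]
  congr 1
  congr 1
  · rw [Finset.sum_comm (f := fun a b => ∑ c, u a * v b * q c * B (ev4 b) (ev4 c) (ev4 a))]
    refine Finset.sum_congr rfl fun b _ => ?_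
    rw [Finset.sum_comm]
    exact Finset.sum_congr rfl fun c _ => Finset.sum_congr rfl fun a _ => by ring
  · rw [Finset.sum_congr rfl fun a _ => Finset.sum_comm
      (f := fun b c => u a * v b * q c * B (ev4 c) (ev4 a) (ev4 b))]
    rw [Finset.sum_comm]
    exact Finset.sum_congr rfl fun c _ => Finset.sum_congr rfl fun a _ =>
      Finset.sum_congr rfl fun b _ => by ring

/-- closedness is vanishing of `d2` of the coefficients in some chart around each point -/
theorem isClosedForm_of_d2 {w : M → E4 → E4 → ℝ} (hw : IsTwoForm w)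
    (h : ∀ p : M, ∀ a b c : Fin 4, d2 (readC (chartAt E4 p) w) (chartAt E4 p p) a b c = 0) :
    IsClosedForm w := by
  refine isClosedForm_of_local hw fun p => ⟨p, mem_extChartAt_source p, fun u v q => ?_⟩
  rw [show extChartAt (𝓡 4) p p = chartAt E4 p p from rfl,
    cycSum_eq_sum hw p ((chartAt E4 p).map_source (mem_chart_source E4 p))]
  simp [h]

theorem isClosedForm_iff_d2 {w : M → E4 → E4 → ℝ} (hw : IsTwoForm w) :
    IsClosedForm w ↔ ∀ c : OpenPartialHomeomorph M E4, IsChart c → ∀ y ∈ c.target,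
      ∀ i j k : Fin 4, d2 (readC c w) y i j k = 0 :=
  ⟨fun h _ hc _ hy => h.d2_readC hw hc hy, fun h => isClosedForm_of_d2 hw fun p =>
    h _ (isChart_chartAt p) _ ((chartAt E4 p).map_source (mem_chart_source E4 p))⟩

theorem isClosedForm_dOne {α : M → E4 → ℝ} (hα : IsOneForm α) : IsClosedForm (dOne α) := by
  refine (isClosedForm_iff_d2 (isTwoForm_dOne hα)).2 fun c hc y hy i j k => ?_
  rw [← d2_d1 ((hα.contDiffOn_read1 hc).contDiffAt (c.open_target.mem_nhds hy) |>.of_le
    (WithTop.coe_le_coe.mpr le_top)) i j k]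
  have he : ∀ a b : Fin 4, (fun z => readC c (dOne α) z a b) =ᶠ[𝓝 y]
      fun z => d1 (read1 c α) z a b := fun a b =>
    eventually_of_mem (c.open_target.mem_nhds hy) fun z hz =>
      congrFun (congrFun (readC_dOne hα hc hz) a) b
  simp only [d2, pd]
  rw [(he j k).fderiv_eq, (he k i).fderiv_eq, (he i j).fderiv_eq]

theorem IsExactForm.isClosedForm {w : M → E4 → E4 → ℝ} (h : IsExactForm w) : IsClosedForm w := by
  obtain ⟨α, hα, rfl⟩ := isExactForm_iff.1 h
  exact isClosedForm_dOne hα

theorem isExactForm_zero : IsExactForm (0 : M → E4 → E4 → ℝ) :=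
  ⟨fun _ _ => 0, ⟨fun _ => ⟨by simp, by simp⟩, fun _ _ => contDiffOn_const⟩,
    fun _ _ _ _ _ => by simp [formInChart]⟩

theorem IsExactForm.smul {w : M → E4 → E4 → ℝ} (r : ℝ) (h : IsExactForm w) :
    IsExactForm (r • w) := by
  obtain ⟨α, hα, heq⟩ := h
  refine ⟨fun x v => r * α x v, ⟨fun x => ⟨fun a b => ?_, fun s a => ?_⟩,
    fun x0 v => contDiffOn_const.mul (hα.2 x0 v)⟩, fun x0 y hy u v => ?_⟩
  · show r * α x (a + b) = r * α x a + r * α x b
    rw [(hα.1 x).map_add, mul_add]
  · show r * α x (s • a) = s • (r * α x a)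
    rw [(hα.1 x).map_smul, smul_eq_mul, smul_eq_mul]; ring
  · have hd : ∀ q : E4, DifferentiableAt ℝ
        (fun z => α ((extChartAt (𝓡 4) x0).symm z) (fromChart x0 z q)) y := fun q =>
      ((hα.2 x0 q).differentiableOn (by decide)).differentiableAt
        ((isOpen_extChartAt_target x0).mem_nhds hy)
    simp only [formInChart, Pi.smul_apply, smul_eq_mul]
    rw [fderiv_const_mul (hd v), fderiv_const_mul (hd u)]
    simp only [smul_apply, smul_eq_mul, ← mul_sub, ← heq x0 y hy u v]
    rfl

theorem IsExactForm.add {w η : M → E4 → E4 → ℝ} (h : IsExactForm w) (h' : IsExactForm η) :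
    IsExactForm (w + η) := by
  obtain ⟨α, hα, heq⟩ := h
  obtain ⟨β, hβ, heq'⟩ := h'
  refine ⟨fun x v => α x v + β x v, ⟨fun x => ⟨fun a b => ?_, fun s a => ?_⟩,
    fun x0 v => (hα.2 x0 v).add (hβ.2 x0 v)⟩, fun x0 y hy u v => ?_⟩
  · show α x (a + b) + β x (a + b) = α x a + β x a + (α x b + β x b)
    rw [(hα.1 x).map_add, (hβ.1 x).map_add]; ring
  · show α x (s • a) + β x (s • a) = s • (α x a + β x a)
    rw [(hα.1 x).map_smul, (hβ.1 x).map_smul, smul_add]
  · have hd : ∀ (γ : M → E4 → ℝ), IsOneForm γ → ∀ q : E4, DifferentiableAt ℝ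
        (fun z => γ ((extChartAt (𝓡 4) x0).symm z) (fromChart x0 z q)) y := fun γ hγ q =>
      ((hγ.2 x0 q).differentiableOn (by decide)).differentiableAt
        ((isOpen_extChartAt_target x0).mem_nhds hy)
    have := heq x0 y hy u v
    have := heq' x0 y hy u v
    simp only [formInChart, Pi.add_apply] at *
    rw [fderiv_fun_add (hd α hα v) (hd β hβ v), fderiv_fun_add (hd α hα u) (hd β hβ u)]
    simp only [add_apply]
    linarith

/-- the closed forms as a subspace of all smooth forms -/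
noncomputable def closedSub (M : Type u) [TopologicalSpace M] [ChartedSpace E4 M]
    [IsManifold (𝓡 4) ∞ M] : Submodule ℝ (Form M) where
  carrier := {w | IsClosedForm w.1}
  zero_mem' := (isExactForm_zero (M := M)).isClosedForm
  add_mem' := by
    intro v w hv hw
    refine (isClosedForm_iff_d2 (v + w).2).2 fun c hc y hy i j k => ?_
    have h : ∀ (a b : Fin 4) (z : Form M), DifferentiableAt ℝ (fun t => readC c z.1 t a b) y :=
      fun a b z => ((z.2.contDiffOn_coef hc a b).differentiableOn (by decide)).differentiableAt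
        (c.open_target.mem_nhds hy)
    have h1 := IsClosedForm.d2_readC hv v.2 hc hy i j k
    have h2 := IsClosedForm.d2_readC hw w.2 hc hy i j k
    simp only [d2, pd] at h1 h2
    simp only [Submodule.coe_add, d2, pd, readC_add, Pi.add_apply]
    rw [fderiv_fun_add (h _ _ v) (h _ _ w), fderiv_fun_add (h _ _ v) (h _ _ w),
      fderiv_fun_add (h _ _ v) (h _ _ w)]
    simp only [add_apply]
    linarith
  smul_mem' := by
    intro r w hw
    refine (isClosedForm_iff_d2 (r • w).2).2 fun c hc y hy i j k => ?_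
    have h : ∀ (a b : Fin 4), DifferentiableAt ℝ (fun t => readC c w.1 t a b) y :=
      fun a b => ((w.2.contDiffOn_coef hc a b).differentiableOn (by decide)).differentiableAt
        (c.open_target.mem_nhds hy)
    have h1 := IsClosedForm.d2_readC hw w.2 hc hy i j k
    simp only [d2, pd] at h1
    simp only [Submodule.coe_smul, d2, pd, readC_smul, Pi.smul_apply, smul_eq_mul]
    rw [fderiv_const_mul (h _ _), fderiv_const_mul (h _ _), fderiv_const_mul (h _ _)]
    simp only [smul_apply, smul_eq_mul, ← mul_add]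
    rw [h1, mul_zero]

theorem mem_closedSub {w : Form M} : w ∈ closedSub M ↔ IsClosedForm w.1 := Iff.rfl

/-- the exact forms as a subspace of all smooth forms -/
noncomputable def exactSub (M : Type u) [TopologicalSpace M] [ChartedSpace E4 M]
    [IsManifold (𝓡 4) ∞ M] : Submodule ℝ (Form M) where
  carrier := {w | IsExactForm w.1}
  zero_mem' := isExactForm_zero
  add_mem' := fun h h' => h.add h'
  smul_mem' := fun r _ h => h.smul r

theorem mem_exactSub {w : Form M} : w ∈ exactSub M ↔ IsExactForm w.1 := Iff.rfl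

/-- a compactly supported potential in a chart gives an exact form on the manifold -/
theorem isExactForm_extC [T2Space M] {c : OpenPartialHomeomorph M E4} (hc : IsChart c)
    {K : Set E4} (hK : IsCompact K) (hKt : K ⊆ c.target) {A : E4 → C1}
    (hA : ContDiffOn ℝ ∞ A c.target) (h0 : ∀ y ∈ c.target, y ∉ K → A y = 0) :
    IsExactForm (extC c (d1 A)) ∧ extC c (d1 A) = dOne (ext1 c A) := by
  have h1 := isOneForm_ext1 hc hK hKt hA h0
  have heq : extC c (d1 A) = dOne (ext1 c A) := by
    funext x u v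
    by_cases hx : x ∈ c.source
    · have hW := isAltField_extC c (anti_d1 A)
      rw [hW.apply_eq_readC hc hx, (isAltField_dOne _).apply_eq_readC hc hx,
        readC_extC hc _ (c.map_source hx), readC_dOne h1 hc (c.map_source hx)]
      have he : ∀ q, (fun z => read1 c (ext1 c A) z q) =ᶠ[𝓝 (c x)] fun z => A z q := fun q =>
        eventually_of_mem (c.open_target.mem_nhds (c.map_source hx)) fun z hz =>
          congrFun (read1_ext1 hc A hz) q
      have hd : d1 (read1 c (ext1 c A)) (c x) = d1 A (c x) := by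
        funext a b
        simp only [d1, pd]
        rw [(he b).fderiv_eq, (he a).fderiv_eq]
      rw [hd]
    · rw [extC, indicator_of_notMem hx]
      have hz : ext1 c A =ᶠ[𝓝 x] 0 := eventually_eq_zero_of_notMem hK hKt (fun z hz hzK => by
        funext q
        simp [indicator_of_mem hz, h0 _ (c.map_source hz) hzK]) (fun z hz =>
        indicator_of_notMem hz _) hx
      have hr : ∀ q, (fun z => read1 (chartAt E4 x) (ext1 c A) z q) =ᶠ[𝓝 (chartAt E4 x x)]
          fun _ => (0 : ℝ) := fun q => by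
        filter_upwards [eventually_nhds_chart (mem_chart_source E4 x) hz] with z hz
        simp only [read1, hz]
        rfl
      simp only [dOne, d1, pd]
      simp [(hr _).fderiv_eq]
  exact ⟨heq ▸ isExactForm_dOne h1, heq⟩

end Vale.Agent.P204.Full
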