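import Vale.Agent.P204.Full.Global.Vol

/-!
P204, global lemmas: the cut-off at scale `e` has mass comparable to `e ^ 4`; the averaging
majorant (helper23).
-/

namespace Vale.Agent.P204.Full

open Set Filter Metric MeasureTheory
open scoped Manifold ContDiff Topology

set_option linter.unusedSectionVars false

universe u

/-- volume of a ball in the model space -/
theorem real_volume_closedBall (x : E4) {r : ℝ} (hr : 0 ≤ r) :
    volume.real (closedBall x r) = r ^ 4 * volume.real (ball (0 : E4) 1) := by
  rw [Measure.real, Measure.addHaar_closedBall _ _ hr, finrank_euclideanSpace_fin,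
    ENNReal.toReal_mul, ENNReal.toReal_ofReal (pow_nonneg hr 4)]
  rfl

variable {M : Type u} [TopologicalSpace M] [ChartedSpace E4 M]

namespace Setup

variable (S : Setup M)

theorem bump_nonneg (e : ℝ) (x y : M) : 0 ≤ S.bump e x y := Real.smoothTransition.nonneg _

theorem bump_le_one (e : ℝ) (x y : M) : S.bump e x y ≤ 1 := Real.smoothTransition.le_one _

theorem bump_symm (e : ℝ) (x y : M) : S.bump e x y = S.bump e y x := by
  simp only [Setup.bump, norm_sub_rev]

theorem bump_eq_one {e : ℝ} (he : 0 < e) {x y : M}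
    (h : ‖S.at_.emb x - S.at_.emb y‖ ≤ e) : S.bump e x y = 1 := by
  refine Real.smoothTransition.one_of_one_le ?_
  have h1 : ‖S.at_.emb x - S.at_.emb y‖ ^ 2 / e ^ 2 ≤ 1 := by
    rw [div_le_one (by positivity)]
    exact pow_le_pow_left₀ (norm_nonneg _) h 2
  linarith

theorem lt_of_bump_ne_zero {e : ℝ} (he : 0 < e) {x y : M} (h : S.bump e x y ≠ 0) :
    ‖S.at_.emb x - S.at_.emb y‖ < 2 * e := by
  by_contra hn
  refine h (Real.smoothTransition.zero_of_nonpos ?_)
  have h1 : 2 ≤ ‖S.at_.emb x - S.at_.emb y‖ ^ 2 / e ^ 2 := by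
    rw [le_div_iff₀ (by positivity)]
    have := pow_le_pow_left₀ (by positivity) (not_lt.1 hn) 2
    nlinarith
  linarith

variable [IsManifold (𝓡 4) ∞ M]

theorem continuous_emb' : Continuous S.at_.emb :=
  (EuclideanSpace.equiv (Fin S.at_.dim) ℝ).symm.continuous.comp
    (continuous_pi fun k => (S.at_.emb_smooth k).continuous)

theorem continuous_bump_right (e : ℝ) (x : M) : Continuous (S.bump e x) :=
  (S.isSmoothFn_bump e x).continuous

variable [T2Space M] [CompactSpace M] [MeasurableSpace M] [BorelSpace M]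

/-- the cut-off at scale `e` has mass at most `C e ^ 4` -/
theorem exists_integral_bump_le :
    ∃ C, 0 ≤ C ∧ ∀ e : ℝ, 0 < e → ∀ x : M, ∫ y, S.bump e x y ∂S.vol ≤ C * e ^ 4 := by
  obtain ⟨c, hc, Cb, hCb, hbil⟩ := S.at_.emb_bilip
  choose D hD using fun i => (isCompact_closedBall (0 : E4) 1).exists_bound_of_continuousOn
    ((S.continuousOn_volDens i).mono (closedBall_subset_closedBall (by norm_num)))
  refine ⟨∑ i, |D i| * ((4 / c) ^ 4 * volume.real (ball (0 : E4) 1)), by positivity,
    fun e he x => ?_⟩
  rw [S.integral_vol (S.continuous_bump_right e x), Finset.sum_mul]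
  refine Finset.sum_le_sum fun i _ => ?_
  set ci := S.at_.chart i with hci
  set g : E4 → ℝ := fun y => S.volDens i y * S.bump e x (ci.symm y) with hg
  have hnn : ∀ y ∈ ball (0 : E4) 1, ‖g y‖ ≤ |D i| := fun y hy => by
    rw [hg, norm_mul]
    calc ‖S.volDens i y‖ * ‖S.bump e x (ci.symm y)‖ ≤ |D i| * 1 :=
          mul_le_mul ((hD i y (ball_subset_closedBall hy)).trans (le_abs_self _))
            (by rw [Real.norm_eq_abs, abs_of_nonneg (S.bump_nonneg e x _)]
                exact S.bump_le_one e x _) (norm_nonneg _) (abs_nonneg _)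
      _ = |D i| := mul_one _
  by_cases hex : ∃ y0 ∈ ball (0 : E4) 1, g y0 ≠ 0
  · obtain ⟨y0, hy0, hg0⟩ := hex
    have hd0 := S.lt_of_bump_ne_zero he (right_ne_zero_of_mul hg0)
    have hz : ∀ y ∈ ball (0 : E4) 1 \ (ball (0 : E4) 1 ∩ closedBall y0 (4 * e / c)), g y = 0 := by
      intro y hy
      by_contra hgy
      refine hy.2 ⟨hy.1, ?_⟩
      have hd := S.lt_of_bump_ne_zero he (right_ne_zero_of_mul hgy)
      have hb := (hbil i y (closedBall_subset_closedBall (by norm_num)
        (ball_subset_closedBall hy.1)) y0 (closedBall_subset_closedBall (by norm_num)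
        (ball_subset_closedBall hy0))).1
      rw [mem_closedBall_iff_norm, le_div_iff₀ hc]
      have := norm_sub_le_norm_sub_add_norm_sub (S.at_.emb (ci.symm y)) (S.at_.emb x)
        (S.at_.emb (ci.symm y0))
      have h1 := norm_sub_rev (S.at_.emb x) (S.at_.emb (ci.symm y))
      rw [← hci] at hb
      linarith
    rw [setIntegral_eq_of_subset_of_forall_sdiff_eq_zero measurableSet_ball inter_subset_left hz]
    refine (le_abs_self _).trans ((Real.norm_eq_abs _).symm.le.trans ?_)
    refine (norm_setIntegral_le_of_norm_le_const ?_ fun y hy => hnn y hy.1).trans ?_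
    · exact (measure_mono inter_subset_left).trans_lt measure_ball_lt_top
    · calc |D i| * volume.real (ball (0 : E4) 1 ∩ closedBall y0 (4 * e / c))
          ≤ |D i| * volume.real (closedBall y0 (4 * e / c)) :=
            mul_le_mul_of_nonneg_left (measureReal_mono inter_subset_right
              measure_closedBall_lt_top.ne) (abs_nonneg _)
        _ = _ := by
            rw [real_volume_closedBall y0 (by positivity)]
            ring
  · push Not at hex
    rw [setIntegral_eq_zero_of_forall_eq_zero hex]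
    positivity

/-- the cut-off at scale `e ≤ 1` has mass at least `c e ^ 4` -/
theorem exists_integral_bump_ge :
    ∃ c, 0 < c ∧ ∀ e : ℝ, 0 < e → e ≤ 1 → ∀ x : M, c * e ^ 4 ≤ ∫ y, S.bump e x y ∂S.vol := by
  rcases isEmpty_or_nonempty M with hM | hM
  · exact ⟨1, one_pos, fun _ _ _ x => isEmptyElim x⟩
  obtain ⟨cb, hcb, Cb, hCb, hbil⟩ := S.at_.emb_bilip
  have hn0 : 0 < (S.at_.n : ℝ) := by
    obtain ⟨k, -⟩ := S.exists_chart_mem (Classical.arbitrary M)
    exact Nat.cast_pos.2 (lt_of_le_of_lt (Nat.zero_le _) k.isLt)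
  have hi : ∀ i, ∃ δ d : ℝ, 0 < δ ∧ 0 < d ∧ ∀ y0 ∈ closedBall (0 : E4) 1,
      1 / S.at_.n ≤ S.at_.rho i ((S.at_.chart i).symm y0) → ∀ y ∈ closedBall y0 δ,
        y ∈ ball (0 : E4) 1 ∧ d ≤ S.volDens i y := by
    intro i
    have hr := ((S.at_.rho_smooth i).contDiffOn (S.at_.mem_maximal i)).continuousOn.mono
      ((closedBall_subset_closedBall (by norm_num : (2 : ℝ) ≤ 4)).trans (S.at_.ball_subset i))
    obtain ⟨δ, hδ, hu⟩ := Metric.uniformContinuousOn_iff.1
      ((isCompact_closedBall (0 : E4) 2).uniformContinuousOn_of_continuous hr)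
      (1 / (2 * S.at_.n)) (by positivity)
    obtain ⟨z0, hz0, hmin⟩ := (isCompact_closedBall (0 : E4) 2).exists_isMinOn
      (nonempty_closedBall.2 (by norm_num)) (((S.continuousOn_densC (S.at_.mem_maximal i)).mono
        ((closedBall_subset_closedBall (by norm_num : (2 : ℝ) ≤ 4)).trans (S.at_.ball_subset i))))
    have hz4 : z0 ∈ closedBall (0 : E4) 4 := closedBall_subset_closedBall (by norm_num) hz0
    have hpos : 0 < S.densC (S.at_.chart i) z0 := by
      rw [S.densC_eq i hz4]
      linarith [S.wdg_read_F_pos i hz4]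
    refine ⟨min (δ / 2) 1, S.densC (S.at_.chart i) z0 / (2 * S.at_.n), by positivity,
      by positivity, fun y0 hy0 hrho y hy => ?_⟩
    have hyd : dist y y0 < δ := by
      have := (mem_closedBall.1 hy).trans (min_le_left _ _)
      linarith
    have hy2 : y ∈ closedBall (0 : E4) 2 := by
      rw [mem_closedBall] at hy0 ⊢
      have := (mem_closedBall.1 hy).trans (min_le_right _ _)
      linarith [dist_triangle y y0 (0 : E4)]
    have hy02 : y0 ∈ closedBall (0 : E4) 2 := closedBall_subset_closedBall (by norm_num) hy0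
    have h := hu y hy2 y0 hy02 hyd
    rw [Real.dist_eq, abs_lt] at h
    have hhalf : 1 / (2 * (S.at_.n : ℝ)) = (1 / S.at_.n) / 2 := by ring
    have hr2 : 1 / (2 * (S.at_.n : ℝ)) ≤ S.at_.rho i ((S.at_.chart i).symm y) := by linarith
    refine ⟨?_, ?_⟩
    · have hne : S.at_.rho i ((S.at_.chart i).symm y) ≠ 0 := by
        have : (0 : ℝ) < 1 / (2 * (S.at_.n : ℝ)) := by positivity
        linarith
      have := (S.at_.rho_support i (subset_tsupport _ hne)).2
      rwa [mem_preimage, (S.at_.chart i).right_inv (S.at_.ball_subset i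
        (closedBall_subset_closedBall (by norm_num) hy2))] at this
    · have hm : S.densC (S.at_.chart i) z0 ≤ S.densC (S.at_.chart i) y := hmin hy2
      rw [Setup.volDens, ← S.densC_eq i (closedBall_subset_closedBall (by norm_num) hy2)]
      calc S.densC (S.at_.chart i) z0 / (2 * S.at_.n)
          = 1 / (2 * S.at_.n) * S.densC (S.at_.chart i) z0 := by ring
        _ ≤ _ := mul_le_mul hr2 hm hpos.le (S.at_.rho_nonneg _ _)
  choose δ d hδ hd hspec using hi
  have huniv : (Finset.univ : Finset (Fin S.at_.n)).Nonempty :=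
    ⟨⟨0, Nat.cast_pos.1 hn0⟩, Finset.mem_univ _⟩
  obtain ⟨i1, -, hi1⟩ := Finset.exists_min_image Finset.univ δ huniv
  obtain ⟨i2, -, hi2⟩ := Finset.exists_min_image Finset.univ d huniv
  set a := min (δ i1) (1 / Cb) with ha
  have ha0 : 0 < a := lt_min (hδ i1) (by positivity)
  have hv : 0 < volume.real (ball (0 : E4) 1) :=
    ENNReal.toReal_pos (measure_ball_pos _ _ one_pos).ne' measure_ball_lt_top.ne
  refine ⟨d i2 * (a ^ 4 * volume.real (ball (0 : E4) 1)),
    mul_pos (hd i2) (mul_pos (pow_pos ha0 4) hv), fun e he he1 x => ?_⟩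
  obtain ⟨i, hix⟩ : ∃ i, 1 / (S.at_.n : ℝ) ≤ S.at_.rho i x := by
    by_contra h
    push Not at h
    have h2 := Finset.sum_lt_sum_of_nonempty huniv fun i _ => h i
    rw [S.at_.rho_sum x] at h2
    simp [hn0.ne'] at h2
  have hne : S.at_.rho i x ≠ 0 := by
    have : (0 : ℝ) < 1 / S.at_.n := by positivity
    linarith
  obtain ⟨hxs, hxb⟩ := S.at_.rho_support i (subset_tsupport _ hne)
  set y0 := S.at_.chart i x with hy0def
  have hsymm : (S.at_.chart i).symm y0 = x := (S.at_.chart i).left_inv hxs
  have hball : ∀ y ∈ closedBall y0 (a * e), y ∈ ball (0 : E4) 1 ∧ d i2 ≤ S.volDens i y ∧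
      S.bump e x ((S.at_.chart i).symm y) = 1 := fun y hy => by
    have h1 := hspec i y0 (ball_subset_closedBall hxb) (by rwa [hsymm]) y
      (closedBall_subset_closedBall (((mul_le_of_le_one_right ha0.le he1).trans
        (min_le_left _ _)).trans (hi1 i (Finset.mem_univ i))) hy)
    refine ⟨h1.1, (hi2 i (Finset.mem_univ i)).trans h1.2, S.bump_eq_one he ?_⟩
    have hb := (hbil i y0 (closedBall_subset_closedBall (by norm_num)
      (ball_subset_closedBall hxb)) y (closedBall_subset_closedBall (by norm_num)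
      (ball_subset_closedBall h1.1))).2
    rw [hsymm] at hb
    refine hb.trans ?_
    have h2 : ‖y0 - y‖ ≤ a * e := by rw [← dist_eq_norm, dist_comm]; exact mem_closedBall.1 hy
    calc Cb * ‖y0 - y‖ ≤ Cb * (1 / Cb * e) := by
          refine mul_le_mul_of_nonneg_left (h2.trans ?_) hCb.le
          exact mul_le_mul_of_nonneg_right (min_le_right _ _) he.le
      _ = e := by field_simp
  have hint : ∀ k, IntegrableOn (fun y => S.volDens k y * S.bump e x ((S.at_.chart k).symm y))
      (ball (0 : E4) 1) volume := fun k => by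
    have hsub : closedBall (0 : E4) 1 ⊆ closedBall (0 : E4) 4 :=
      closedBall_subset_closedBall (by norm_num)
    exact ((((S.continuousOn_volDens k).mono hsub).mul ((S.continuous_bump_right e x).comp_continuousOn
      ((S.at_.chart k).symm.continuousOn.mono (hsub.trans (S.at_.ball_subset k))))).integrableOn_compact
      (isCompact_closedBall _ _)).mono_set ball_subset_closedBall
  have hnn : ∀ k, ∀ y ∈ ball (0 : E4) 1,
      0 ≤ S.volDens k y * S.bump e x ((S.at_.chart k).symm y) := fun k y hy =>
    mul_nonneg (S.volDens_nonneg k (closedBall_subset_closedBall (by norm_num)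
      (ball_subset_closedBall hy))) (S.bump_nonneg e x _)
  rw [S.integral_vol (S.continuous_bump_right e x)]
  refine le_trans ?_ (Finset.single_le_sum (fun k _ => setIntegral_nonneg measurableSet_ball
    (hnn k)) (Finset.mem_univ i))
  have hsub : closedBall y0 (a * e) ⊆ ball (0 : E4) 1 := fun y hy => (hball y hy).1
  refine le_trans ?_ (setIntegral_mono_set (hint i)
    ((ae_restrict_mem measurableSet_ball).mono (hnn i)) hsub.eventuallyLE)
  calc d i2 * (a ^ 4 * volume.real (ball (0 : E4) 1)) * e ^ 4
      = ∫ _y in closedBall y0 (a * e), d i2 := by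
        rw [setIntegral_const, real_volume_closedBall y0 (by positivity), smul_eq_mul]
        ring
    _ ≤ _ := by
        refine setIntegral_mono_on (integrableOn_const measure_closedBall_lt_top.ne)
          ((hint i).mono_set hsub) measurableSet_closedBall fun y hy => ?_
        rw [(hball y hy).2.2, mul_one]
        exact (hball y hy).2.1

omit [IsManifold (𝓡 4) ∞ M] [T2Space M] [CompactSpace M] [BorelSpace M] in
theorem maj_nonneg (e : ℝ) {f : M → ℝ} (hf : ∀ y, 0 ≤ f y) (x : M) : 0 ≤ S.maj e f x :=
  div_nonneg (integral_nonneg fun y => mul_nonneg (S.bump_nonneg e x y) (hf y))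
    (Even.pow_nonneg (by decide) e)

theorem maj_mono (e : ℝ) {f g : M → ℝ} (hf : Continuous f) (hg : Continuous g)
    (h : ∀ y, f y ≤ g y) (x : M) : S.maj e f x ≤ S.maj e g x :=
  div_le_div_of_nonneg_right (integral_mono
    (S.integrable_of_continuous ((S.continuous_bump_right e x).mul hf))
    (S.integrable_of_continuous ((S.continuous_bump_right e x).mul hg))
    fun y => mul_le_mul_of_nonneg_left (h y) (S.bump_nonneg e x y)) (Even.pow_nonneg (by decide) e)

theorem maj_add (e : ℝ) {f g : M → ℝ} (hf : Continuous f) (hg : Continuous g) (x : M) :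
    S.maj e (fun y => f y + g y) x = S.maj e f x + S.maj e g x := by
  simp only [Setup.maj, mul_add, ← add_div]
  rw [integral_add (S.integrable_of_continuous ((S.continuous_bump_right e x).fun_mul hf))
    (S.integrable_of_continuous ((S.continuous_bump_right e x).fun_mul hg))]

omit [IsManifold (𝓡 4) ∞ M] [T2Space M] [CompactSpace M] [BorelSpace M] in
theorem maj_const_mul (e r : ℝ) (f : M → ℝ) (x : M) :
    S.maj e (fun y => r * f y) x = r * S.maj e f x := by
  simp only [Setup.maj, mul_left_comm _ r, integral_const_mul, mul_div_assoc]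

/-- the averaging majorant is bounded by the supremum -/
theorem exists_maj_le : ∃ C, 0 ≤ C ∧ ∀ e : ℝ, 0 < e → ∀ f : M → ℝ, Continuous f → ∀ B : ℝ,
    (∀ y, f y ≤ B) → ∀ x, S.maj e f x ≤ C * max B 0 := by
  obtain ⟨C, hC, h⟩ := S.exists_integral_bump_le
  refine ⟨C, hC, fun e he f hf B hB x => ?_⟩
  rw [Setup.maj, div_le_iff₀ (by positivity)]
  calc ∫ y, S.bump e x y * f y ∂S.vol ≤ ∫ y, S.bump e x y * max B 0 ∂S.vol :=
        integral_mono (S.integrable_of_continuous ((S.continuous_bump_right e x).mul hf))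
          (S.integrable_of_continuous ((S.continuous_bump_right e x).mul continuous_const))
          fun y => mul_le_mul_of_nonneg_left ((hB y).trans (le_max_left _ _))
            (S.bump_nonneg e x y)
    _ ≤ C * e ^ 4 * max B 0 := by
        rw [integral_mul_const]
        exact mul_le_mul_of_nonneg_right (h e he x) (le_max_right _ _)
    _ = C * max B 0 * e ^ 4 := by ring

end Setup

end Vale.Agent.P204.Full
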