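import Vale.Agent.P204.Full.Core
import Vale.Agent.P204.Full.Closed

/-!
P204, global lemmas: calculus of the pointwise fields in charts of the maximal atlas (helper23).
-/

namespace Vale.Agent.P204.Full

open Set
open scoped Manifold ContDiff

set_option linter.unusedSectionVars false

universe u

variable {M : Type u} [TopologicalSpace M] [ChartedSpace E4 M]

/-- a chart of the maximal smooth atlas -/
abbrev IsChart (c : OpenPartialHomeomorph M E4) : Prop :=
  c ∈ IsManifold.maximalAtlas (𝓡 4) ∞ M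

/-- pointwise linear antisymmetric fields: the algebraic part of `IsTwoForm` -/
def IsAltField (w : M → E4 → E4 → ℝ) : Prop :=
  (∀ x u, IsLinearMap ℝ (w x u)) ∧ ∀ x u v, w x v u = -w x u v

theorem IsTwoForm.isAltField {w : M → E4 → E4 → ℝ} (h : IsTwoForm w) : IsAltField w :=
  ⟨h.1, h.2.1⟩

/-- `dMap` as a continuous linear map -/
noncomputable def dMapL (c : OpenPartialHomeomorph M E4) (x : M) : E4 →L[ℝ] E4 :=
  mfderiv (𝓡 4) (𝓡 4) c x

/-- `dInv` as a continuous linear map -/
noncomputable def dInvL (c : OpenPartialHomeomorph M E4) (y : E4) : E4 →L[ℝ] E4 :=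
  mfderiv (𝓡 4) (𝓡 4) c.symm y

theorem dMapL_apply (c : OpenPartialHomeomorph M E4) (x : M) (v : E4) :
    dMapL c x v = dMap c x v := rfl

theorem dInvL_apply (c : OpenPartialHomeomorph M E4) (y v : E4) :
    dInvL c y v = dInv c y v := rfl

/-- transition map between two charts -/
def tr (c c' : OpenPartialHomeomorph M E4) (y : E4) : E4 := c' (c.symm y)

/-- domain of the transition map -/
def ov (c c' : OpenPartialHomeomorph M E4) : Set E4 := c.target ∩ c.symm ⁻¹' c'.source

theorem isOpen_ov (c c' : OpenPartialHomeomorph M E4) : IsOpen (ov c c') :=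
  c.symm.continuousOn.isOpen_inter_preimage c.open_target c'.open_source

theorem tr_mem_ov {c c' : OpenPartialHomeomorph M E4} {y : E4} (hy : y ∈ ov c c') :
    tr c c' y ∈ ov c' c := by
  refine ⟨c'.map_source hy.2, ?_⟩
  show c'.symm (c' (c.symm y)) ∈ c.source
  rw [c'.left_inv hy.2]
  exact c.map_target hy.1

theorem symm_tr {c c' : OpenPartialHomeomorph M E4} {y : E4} (hy : y ∈ ov c c') :
    c'.symm (tr c c' y) = c.symm y := c'.left_inv hy.2

theorem tr_tr {c c' : OpenPartialHomeomorph M E4} {y : E4} (hy : y ∈ ov c c') :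
    tr c' c (tr c c' y) = y := by
  show c (c'.symm (tr c c' y)) = y
  rw [symm_tr hy, c.right_inv hy.1]

theorem self_mem_ov {c c' : OpenPartialHomeomorph M E4} {x : M} (h : x ∈ c.source)
    (h' : x ∈ c'.source) : c x ∈ ov c c' :=
  ⟨c.map_source h, by show c.symm (c x) ∈ c'.source; rwa [c.left_inv h]⟩

section Deriv

variable {c c' : OpenPartialHomeomorph M E4}

theorem IsChart.mdifferentiable (hc : IsChart c) : c.MDifferentiable (𝓡 4) (𝓡 4) :=
  ⟨(contMDiffOn_of_mem_maximalAtlas hc).mdifferentiableOn (by decide),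
    (contMDiffOn_symm_of_mem_maximalAtlas hc).mdifferentiableOn (by decide)⟩

theorem dInv_dMap (hc : IsChart c) {x : M} (hx : x ∈ c.source) (v : E4) :
    dInv c (c x) (dMap c x v) = v :=
  congrArg (fun L : E4 →L[ℝ] E4 => L v) (hc.mdifferentiable.symm_comp_deriv hx)

theorem dMap_dInv (hc : IsChart c) {y : E4} (hy : y ∈ c.target) (v : E4) :
    dMap c (c.symm y) (dInv c y v) = v :=
  congrArg (fun L : E4 →L[ℝ] E4 => L v) (hc.mdifferentiable.comp_symm_deriv hy)

theorem dInv_injective (hc : IsChart c) {y : E4} (hy : y ∈ c.target) :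
    Function.Injective (dInv c y) :=
  Function.LeftInverse.injective (g := dMap c (c.symm y)) (dMap_dInv hc hy)

theorem dMap_injective (hc : IsChart c) {x : M} (hx : x ∈ c.source) :
    Function.Injective (dMap c x) :=
  Function.LeftInverse.injective (g := dInv c (c x)) (dInv_dMap hc hx)

theorem contDiffOn_tr (hc : IsChart c) (hc' : IsChart c') :
    ContDiffOn ℝ ∞ (tr c c') (ov c c') :=
  contMDiffOn_iff_contDiffOn.1
    ((contMDiffOn_of_mem_maximalAtlas hc').comp' (contMDiffOn_symm_of_mem_maximalAtlas hc))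

theorem contDiffAt_tr (hc : IsChart c) (hc' : IsChart c') {y : E4} (hy : y ∈ ov c c') :
    ContDiffAt ℝ ∞ (tr c c') y :=
  (contDiffOn_tr hc hc').contDiffAt ((isOpen_ov c c').mem_nhds hy)

theorem differentiableAt_tr (hc : IsChart c) (hc' : IsChart c') {y : E4} (hy : y ∈ ov c c') :
    DifferentiableAt ℝ (tr c c') y :=
  (contDiffAt_tr hc hc' hy).differentiableAt (by decide)

theorem dMap_dInv_eq_fderiv (hc : IsChart c) (hc' : IsChart c') {y : E4} (hy : y ∈ ov c c')
    (v : E4) : dMap c' (c.symm y) (dInv c y v) = fderiv ℝ (tr c c') y v := by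
  have h := mfderiv_comp y (hc'.mdifferentiable.mdifferentiableAt hy.2)
    (hc.mdifferentiable.mdifferentiableAt_symm hy.1)
  rw [← mfderiv_eq_fderiv]
  exact (congrArg (fun L : E4 →L[ℝ] E4 => L v) h).symm

theorem dInv_tr (hc : IsChart c) (hc' : IsChart c') {y : E4} (hy : y ∈ ov c c') (v : E4) :
    dInv c' (tr c c' y) (fderiv ℝ (tr c c') y v) = dInv c y v := by
  rw [← dMap_dInv_eq_fderiv hc hc' hy]
  exact dInv_dMap hc' hy.2 _

theorem fderiv_tr_injective (hc : IsChart c) (hc' : IsChart c') {y : E4} (hy : y ∈ ov c c') :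
    Function.Injective (fderiv ℝ (tr c c') y) := fun a b h => by
  apply dInv_injective hc hy.1
  rw [← dInv_tr hc hc' hy, h, dInv_tr hc hc' hy]

end Deriv

/-- a one-form read in a chart -/
noncomputable def read1 (c : OpenPartialHomeomorph M E4) (α : M → E4 → ℝ) (y : E4) : C1 :=
  fun i => α (c.symm y) (dInv c y (ev4 i))

theorem sum_ev4 (u : E4) : ∑ a, u a • ev4 a = u := sum_single_E4 u

theorem ev4_coord (a i : Fin 4) : ev4 a i = if i = a then 1 else 0 := by
  simp [ev4]

theorem fderiv_ev4_apply {Φ : E4 → E4} (x : E4) (a : Fin 4) :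
    fderiv ℝ Φ x (ev4 a) = ∑ p, jac Φ x p a • ev4 p :=
  (sum_ev4 (fderiv ℝ Φ x (ev4 a))).symm

namespace IsAltField

variable {w : M → E4 → E4 → ℝ} (h : IsAltField w)

include h

theorem isLinear_left (x : M) (v : E4) : IsLinearMap ℝ fun u => w x u v := by
  constructor
  · intro a b
    rw [h.2 x v, h.2 x v a, h.2 x v b, (h.1 x v).map_add]
    ring
  · intro r a
    rw [h.2 x v, h.2 x v a, (h.1 x v).map_smul]
    simp

theorem eq_sum (x : M) (u v : E4) :
    w x u v = ∑ a, ∑ b, u a * v b * w x (ev4 a) (ev4 b) := by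
  rw [bilinear_eq_bilinOf (w x) (h.isLinear_left x) (h.1 x), bilinOf_apply]
  exact Finset.sum_congr rfl fun a _ => Finset.sum_congr rfl fun b _ => mul_comm _ _

theorem anti_readC (c : OpenPartialHomeomorph M E4) (y : E4) : Anti (readC c w y) :=
  fun _ _ => h.2 _ _ _

theorem dInv_eq_sum (c : OpenPartialHomeomorph M E4) (y u v : E4) :
    w (c.symm y) (dInv c y u) (dInv c y v) = ∑ a, ∑ b, u a * v b * readC c w y a b := by
  have hB := bilinear_eq_bilinOf (fun p q => w (c.symm y) (dInvL c y p) (dInvL c y q))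
    (fun q => ((h.isLinear_left (c.symm y) (dInvL c y q)).mk' _).comp
      (dInvL c y).toLinearMap |>.isLinear)
    (fun p => ((h.1 (c.symm y) (dInvL c y p)).mk' _).comp (dInvL c y).toLinearMap |>.isLinear)
    u v
  rw [bilinOf_apply] at hB
  refine hB.trans ?_
  exact Finset.sum_congr rfl fun a _ => Finset.sum_congr rfl fun b _ => mul_comm _ _

theorem apply_eq_readC {c : OpenPartialHomeomorph M E4} (hc : IsChart c) {x : M}
    (hx : x ∈ c.source) (u v : E4) :
    w x u v = ∑ a, ∑ b, dMap c x u a * dMap c x v b * readC c w (c x) a b := by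
  rw [← h.dInv_eq_sum c (c x), c.left_inv hx, dInv_dMap hc hx, dInv_dMap hc hx]

theorem readC_tr {c c' : OpenPartialHomeomorph M E4} (hc : IsChart c) (hc' : IsChart c')
    {y : E4} (hy : y ∈ ov c c') :
    readC c w y = pullC (jac (tr c c') y) (readC c' w (tr c c' y)) := by
  funext a b
  show w (c.symm y) (dInv c y (ev4 a)) (dInv c y (ev4 b)) = _
  rw [← dInv_tr hc hc' hy, ← dInv_tr hc hc' hy, ← symm_tr hy, h.dInv_eq_sum]
  simp only [pullC, jac]

end IsAltField

theorem read1_tr {α : M → E4 → ℝ} (hα : ∀ x, IsLinearMap ℝ (α x))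
    {c c' : OpenPartialHomeomorph M E4} (hc : IsChart c) (hc' : IsChart c') {y : E4}
    (hy : y ∈ ov c c') (a : Fin 4) :
    read1 c α y a = ∑ p, jac (tr c c') y p a * read1 c' α (tr c c' y) p := by
  let L : E4 →ₗ[ℝ] ℝ := ((hα (c'.symm (tr c c' y))).mk' _).comp
    (dInvL c' (tr c c' y)).toLinearMap
  have hL : ∀ v, L v = α (c'.symm (tr c c' y)) (dInv c' (tr c c' y) v) := fun v => rfl
  show α (c.symm y) (dInv c y (ev4 a)) = _
  rw [← dInv_tr hc hc' hy, ← symm_tr hy, ← hL, fderiv_ev4_apply, map_sum]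
  exact Finset.sum_congr rfl fun p _ => by rw [map_smul, smul_eq_mul, hL]; rfl

/-- the distinguished chart at a point, as a member of the maximal atlas -/
theorem isChart_chartAt [IsManifold (𝓡 4) ∞ M] (x0 : M) : IsChart (chartAt E4 x0) :=
  IsManifold.chart_mem_maximalAtlas x0

theorem extChartAt_coe_eq (x0 : M) : ⇑(extChartAt (𝓡 4) x0) = ⇑(chartAt E4 x0) := rfl

theorem extChartAt_symm_eq (x0 : M) :
    ⇑(extChartAt (𝓡 4) x0).symm = ⇑(chartAt E4 x0).symm := rfl

theorem extChartAt_target_eq (x0 : M) : (extChartAt (𝓡 4) x0).target = (chartAt E4 x0).target := by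
  simp

theorem fromChart_eq_dInv (x0 : M) (y v : E4) : fromChart x0 y v = dInv (chartAt E4 x0) y v := rfl

theorem toChart_eq_dMap (x0 x : M) (v : E4) : toChart x0 x v = dMap (chartAt E4 x0) x v := rfl

theorem formInChart_eq_readC (w : M → E4 → E4 → ℝ) (x0 : M) (y : E4) (a b : Fin 4) :
    formInChart w x0 y (ev4 a) (ev4 b) = readC (chartAt E4 x0) w y a b := rfl

theorem formInChart_eq_sum {w : M → E4 → E4 → ℝ} (h : IsAltField w) (x0 : M) (y u v : E4) :
    formInChart w x0 y u v = ∑ a, ∑ b, u a * v b * readC (chartAt E4 x0) w y a b :=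
  h.dInv_eq_sum _ y u v

theorem dMap_chartAt_self [IsManifold (𝓡 4) ∞ M] (p : M) (v : E4) :
    dMap (chartAt E4 p) p v = v := toChart_self p v

theorem coefAt_eq_readC [IsManifold (𝓡 4) ∞ M] (w : M → E4 → E4 → ℝ) (x : M) :
    coefAt w x = readC (chartAt E4 x) w (chartAt E4 x x) := by
  have hx : x ∈ (chartAt E4 x).source := mem_chart_source E4 x
  have h : ∀ v, dInv (chartAt E4 x) (chartAt E4 x x) v = v := fun v => by
    conv_lhs => rw [← toChart_self x v, toChart_eq_dMap]
    exact dInv_dMap (isChart_chartAt x) hx v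
  funext a b
  simp only [coefAt, readC, (chartAt E4 x).left_inv hx, h]

end Vale.Agent.P204.Full
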