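import Vale.Agent.P204.Heart.Stokes

/-!
P204, global lemmas: integration by parts for `wdg (d1 A, B)` on an open subset of the model space
(helper23).
-/

namespace Vale.Agent.P204.Full

open MeasureTheory Set Filter Metric Vale.Agent.P204.Heart
open scoped ContDiff Topology

/-- product of a three-form with a one-form, as a multiple of the volume element -/
def wdg3 (t : Fin 4 → Fin 4 → Fin 4 → ℝ) (a : C1) : ℝ :=
  -(a 0 * t 1 2 3) + a 1 * t 0 2 3 - a 2 * t 0 1 3 + a 3 * t 0 1 2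

/-- the flux of `A ∧ B` -/
def flux (A : E4 → C1) (B : E4 → C2) (i : Fin 4) (x : E4) : ℝ :=
  ![A x 1 * B x 2 3 - A x 2 * B x 1 3 + A x 3 * B x 1 2,
    -(A x 0 * B x 2 3) + A x 2 * B x 0 3 - A x 3 * B x 0 2,
    A x 0 * B x 1 3 - A x 1 * B x 0 3 + A x 3 * B x 0 1,
    -(A x 0 * B x 1 2) + A x 1 * B x 0 2 - A x 2 * B x 0 1] i

theorem wdg_d1_add_wdg3 {A : E4 → C1} {B : E4 → C2} {x : E4}
    (hA : ∀ i, DifferentiableAt ℝ (fun y => A y i) x)
    (hB : ∀ i j, DifferentiableAt ℝ (fun y => B y i j) x)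
    (hanti : ∀ᶠ y in 𝓝 x, Anti (B y)) :
    wdg (d1 A x) (B x) + wdg3 (d2 B x) (A x) = ∑ i, pd (flux A B i) i x := by
  set a : Fin 4 → E4 → ℝ := fun i y => A y i with ha
  set b : Fin 4 → Fin 4 → E4 → ℝ := fun i j y => B y i j with hb
  have e0 : pd (flux A B 0) 0 x = pd (a 1) 0 x * b 2 3 x + a 1 x * pd (b 2 3) 0 x
      - (pd (a 2) 0 x * b 1 3 x + a 2 x * pd (b 1 3) 0 x)
      + (pd (a 3) 0 x * b 1 2 x + a 3 x * pd (b 1 2) 0 x) := by
    show pd (fun y => a 1 y * b 2 3 y - a 2 y * b 1 3 y + a 3 y * b 1 2 y) 0 x = _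
    rw [pd_add' (((hA 1).fun_mul (hB 2 3)).fun_sub ((hA 2).fun_mul (hB 1 3)))
      ((hA 3).fun_mul (hB 1 2)), pd_sub' ((hA 1).fun_mul (hB 2 3)) ((hA 2).fun_mul (hB 1 3)),
      pd_mul (hA 1) (hB 2 3), pd_mul (hA 2) (hB 1 3), pd_mul (hA 3) (hB 1 2)]
  have e1 : pd (flux A B 1) 1 x = -(pd (a 0) 1 x * b 2 3 x + a 0 x * pd (b 2 3) 1 x)
      + (pd (a 2) 1 x * b 0 3 x + a 2 x * pd (b 0 3) 1 x)
      - (pd (a 3) 1 x * b 0 2 x + a 3 x * pd (b 0 2) 1 x) := by
    show pd (fun y => -(a 0 y * b 2 3 y) + a 2 y * b 0 3 y - a 3 y * b 0 2 y) 1 x = _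
    rw [pd_sub' (((hA 0).fun_mul (hB 2 3)).fun_neg.fun_add ((hA 2).fun_mul (hB 0 3)))
      ((hA 3).fun_mul (hB 0 2)),
      pd_add' ((hA 0).fun_mul (hB 2 3)).fun_neg ((hA 2).fun_mul (hB 0 3)), pd_neg,
      pd_mul (hA 0) (hB 2 3), pd_mul (hA 2) (hB 0 3), pd_mul (hA 3) (hB 0 2)]
  have e2 : pd (flux A B 2) 2 x = pd (a 0) 2 x * b 1 3 x + a 0 x * pd (b 1 3) 2 x
      - (pd (a 1) 2 x * b 0 3 x + a 1 x * pd (b 0 3) 2 x)
      + (pd (a 3) 2 x * b 0 1 x + a 3 x * pd (b 0 1) 2 x) := by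
    show pd (fun y => a 0 y * b 1 3 y - a 1 y * b 0 3 y + a 3 y * b 0 1 y) 2 x = _
    rw [pd_add' (((hA 0).fun_mul (hB 1 3)).fun_sub ((hA 1).fun_mul (hB 0 3)))
      ((hA 3).fun_mul (hB 0 1)), pd_sub' ((hA 0).fun_mul (hB 1 3)) ((hA 1).fun_mul (hB 0 3)),
      pd_mul (hA 0) (hB 1 3), pd_mul (hA 1) (hB 0 3), pd_mul (hA 3) (hB 0 1)]
  have e3 : pd (flux A B 3) 3 x = -(pd (a 0) 3 x * b 1 2 x + a 0 x * pd (b 1 2) 3 x)
      + (pd (a 1) 3 x * b 0 2 x + a 1 x * pd (b 0 2) 3 x)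
      - (pd (a 2) 3 x * b 0 1 x + a 2 x * pd (b 0 1) 3 x) := by
    show pd (fun y => -(a 0 y * b 1 2 y) + a 1 y * b 0 2 y - a 2 y * b 0 1 y) 3 x = _
    rw [pd_sub' (((hA 0).fun_mul (hB 1 2)).fun_neg.fun_add ((hA 1).fun_mul (hB 0 2)))
      ((hA 2).fun_mul (hB 0 1)),
      pd_add' ((hA 0).fun_mul (hB 1 2)).fun_neg ((hA 1).fun_mul (hB 0 2)), pd_neg,
      pd_mul (hA 0) (hB 1 2), pd_mul (hA 1) (hB 0 2), pd_mul (hA 2) (hB 0 1)]
  have hf : ∀ i j k, pd (b j i) k x = -pd (b i j) k x := fun i j k => by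
    rw [pd_congr (g := fun y => -b i j y) (hanti.mono fun y hy => hy i j) k, pd_neg]
  have f31 := hf 1 3 2
  have f30a := hf 0 3 1
  have f30b := hf 0 3 2
  have f20 := hf 0 2 1
  rw [Fin.sum_univ_four, e0, e1, e2, e3]
  simp only [wdg, d1, wdg3, d2]
  simp only [ha, hb] at f31 f30a f30b f20 ⊢
  rw [f31, f30a, f30b, f20]
  ring

/-- the integral of a partial derivative of a function vanishing off a compact subset -/
theorem setIntegral_pd_eq_zero {U K : Set E4} (hU : IsOpen U) (hK : IsCompact K) (hKU : K ⊆ U)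
    {g : E4 → ℝ} (hg : ContDiffOn ℝ 1 g U) (h0 : ∀ y ∈ U, y ∉ K → g y = 0) (i : Fin 4) :
    ∫ y in U, pd g i y = 0 := by
  set G : E4 → ℝ := U.indicator g with hG
  have hzero : ∀ y, y ∉ K → G =ᶠ[𝓝 y] fun _ => 0 := fun y hy => by
    filter_upwards [hK.isClosed.isOpen_compl.mem_nhds hy] with z hz
    by_cases hzU : z ∈ U
    · rw [hG, indicator_of_mem hzU]
      exact h0 z hzU hz
    · exact indicator_of_notMem hzU _
  have hGU : ∀ y ∈ U, G =ᶠ[𝓝 y] g := fun y hy =>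
    eventually_of_mem (hU.mem_nhds hy) fun z hz => indicator_of_mem hz _
  have hGs : ContDiff ℝ 1 G := contDiff_iff_contDiffAt.2 fun y => by
    by_cases hy : y ∈ U
    · exact (hg.contDiffAt (hU.mem_nhds hy)).congr_of_eventuallyEq (hGU y hy)
    · exact contDiffAt_const.congr_of_eventuallyEq (hzero y fun h => hy (hKU h))
  have hGc : HasCompactSupport G :=
    HasCompactSupport.of_support_subset_isCompact hK fun y hy => by
      by_contra h
      exact hy (hzero y h).self_of_nhds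
  have h := Heart.integral_pd_eq_zero hGs hGc i
  rw [← setIntegral_eq_integral_of_forall_compl_eq_zero (s := U) fun y hy => ?_] at h
  · rw [← h]
    exact setIntegral_congr_fun hU.measurableSet fun y hy => (pd_congr (hGU y hy) i).symm
  · rw [pd_congr (hzero y fun hk => hy (hKU hk)) i]
    simp [pd]

/-- integration by parts on an open set, the potential vanishing off a compact subset -/
theorem integral_wdg_d1 {U K : Set E4} (hU : IsOpen U) (hK : IsCompact K) (hKU : K ⊆ U)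
    {A : E4 → C1} {B : E4 → C2} (hA : ContDiffOn ℝ 1 A U) (hB : ContDiffOn ℝ 1 B U)
    (hanti : ∀ y ∈ U, Anti (B y)) (h0 : ∀ y ∈ U, y ∉ K → A y = 0) :
    ∫ y in U, wdg (d1 A y) (B y) = -∫ y in U, wdg3 (d2 B y) (A y) := by
  have hA' := contDiffOn_pi.1 hA
  have hB' := fun i j => contDiffOn_pi.1 (contDiffOn_pi.1 hB i) j
  have hFs : ∀ i, ContDiffOn ℝ 1 (flux A B i) U := fun i => by
    fin_cases i
    · exact (((hA' 1).mul (hB' 2 3)).sub ((hA' 2).mul (hB' 1 3))).add ((hA' 3).mul (hB' 1 2))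
    · exact ((((hA' 0).mul (hB' 2 3)).neg).add ((hA' 2).mul (hB' 0 3))).sub ((hA' 3).mul (hB' 0 2))
    · exact (((hA' 0).mul (hB' 1 3)).sub ((hA' 1).mul (hB' 0 3))).add ((hA' 3).mul (hB' 0 1))
    · exact ((((hA' 0).mul (hB' 1 2)).neg).add ((hA' 1).mul (hB' 0 2))).sub ((hA' 2).mul (hB' 0 1))
  have hF0 : ∀ i, ∀ y ∈ U, y ∉ K → flux A B i y = 0 := fun i y hy hyK => by
    fin_cases i <;> simp [flux, h0 y hy hyK]
  have hev : ∀ y ∈ U, y ∉ K → ∀ i, (fun z => A z i) =ᶠ[𝓝 y] fun _ => (0 : ℝ) := by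
    intro y hy hyK i
    filter_upwards [hU.mem_nhds hy, hK.isClosed.isOpen_compl.mem_nhds hyK] with z hz hzK
    rw [h0 z hz hzK]
    rfl
  have hpc : ∀ f : E4 → ℝ, ContDiffOn ℝ 1 f U → ∀ i, ContinuousOn (fun y => pd f i y) U :=
    fun f hf i => Heart.continuousOn_pd hU hf i
  have hiF : ∀ i, IntegrableOn (fun y => pd (flux A B i) i y) U volume := fun i =>
    ((hpc _ (hFs i) i).mono hKU).integrableOn_compact hK |>.of_forall_sdiff_eq_zero
      hU.measurableSet fun y hy => by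
        rw [pd_congr (g := fun _ => (0 : ℝ)) ?_ i]
        · simp [pd]
        · filter_upwards [hU.mem_nhds hy.1, hK.isClosed.isOpen_compl.mem_nhds hy.2] with z hz hzK
          exact hF0 i z hz hzK
  have hd1c : ∀ i j, ContinuousOn (fun y => d1 A y i j) U := fun i j =>
    (hpc _ (hA' j) i).sub (hpc _ (hA' i) j)
  have hd2c : ∀ i j k, ContinuousOn (fun y => d2 B y i j k) U := fun i j k =>
    ((hpc _ (hB' j k) i).add (hpc _ (hB' k i) j)).add (hpc _ (hB' i j) k)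
  have hAc := fun i => (hA' i).continuousOn
  have hBc := fun i j => (hB' i j).continuousOn
  have hc1 : ContinuousOn (fun y => wdg (d1 A y) (B y)) U := by
    simp only [wdg]
    exact ((((((hd1c 0 1).mul (hBc 2 3)).sub ((hd1c 0 2).mul (hBc 1 3))).add
      ((hd1c 0 3).mul (hBc 1 2))).add ((hd1c 1 2).mul (hBc 0 3))).sub
      ((hd1c 1 3).mul (hBc 0 2))).add ((hd1c 2 3).mul (hBc 0 1))
  have hc3 : ContinuousOn (fun y => wdg3 (d2 B y) (A y)) U :=
    ((((hAc 0).mul (hd2c 1 2 3)).neg.add ((hAc 1).mul (hd2c 0 2 3))).sub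
      ((hAc 2).mul (hd2c 0 1 3))).add ((hAc 3).mul (hd2c 0 1 2))
  have hi1 : IntegrableOn (fun y => wdg (d1 A y) (B y)) U volume :=
    ((hc1.mono hKU).integrableOn_compact hK).of_forall_sdiff_eq_zero hU.measurableSet fun y hy => by
      have hz : ∀ i j, pd (fun z => A z i) j y = 0 := fun i j => by
        rw [pd_congr (hev y hy.1 hy.2 i) j]
        simp [pd]
      simp [wdg, d1, hz]
  have hi3 : IntegrableOn (fun y => wdg3 (d2 B y) (A y)) U volume :=
    ((hc3.mono hKU).integrableOn_compact hK).of_forall_sdiff_eq_zero hU.measurableSet fun y hy => by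
      simp [wdg3, h0 y hy.1 hy.2]
  rw [← add_eq_zero_iff_eq_neg, ← integral_add hi1 hi3,
    setIntegral_congr_fun hU.measurableSet (g := fun y => ∑ i, pd (flux A B i) i y) fun y hy =>
      wdg_d1_add_wdg3 (fun i => ((hA' i).differentiableOn one_ne_zero).differentiableAt
        (hU.mem_nhds hy)) (fun i j => ((hB' i j).differentiableOn one_ne_zero).differentiableAt
        (hU.mem_nhds hy)) (eventually_of_mem (hU.mem_nhds hy) hanti),
    integral_finsetSum _ fun i _ => hiF i]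
  exact Finset.sum_eq_zero fun i _ => setIntegral_pd_eq_zero hU hK hKU (hFs i) (hF0 i) i

theorem d2_anti_left {B : E4 → C2} {x : E4} (h : ∀ᶠ y in 𝓝 x, Anti (B y)) (a b c : Fin 4) :
    d2 B x b a c = -d2 B x a b c := by
  have hf : ∀ i j k, pd (fun y => B y j i) k x = -pd (fun y => B y i j) k x := fun i j k => by
    rw [pd_congr (g := fun y => -B y i j) (h.mono fun y hy => hy i j) k, pd_neg]
  simp only [d2]
  rw [hf c a b, hf b c a, hf a b c]
  ring

theorem d2_cycle (B : E4 → C2) (x : E4) (a b c : Fin 4) : d2 B x b c a = d2 B x a b c := by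
  simp only [d2]
  ring

/-- four components determine the exterior derivative of a two-form -/
theorem d2_eq_zero_of_four {B : E4 → C2} {x : E4} (h : ∀ᶠ y in 𝓝 x, Anti (B y))
    (h1 : d2 B x 1 2 3 = 0) (h2 : d2 B x 0 2 3 = 0) (h3 : d2 B x 0 1 3 = 0)
    (h4 : d2 B x 0 1 2 = 0) (a b c : Fin 4) : d2 B x a b c = 0 := by
  have hrep : ∀ a c, d2 B x a a c = 0 := fun a c => by linarith [d2_anti_left h a a c]
  have perms : ∀ a b c, d2 B x a b c = 0 →
      d2 B x b c a = 0 ∧ d2 B x c a b = 0 ∧ d2 B x b a c = 0 ∧ d2 B x a c b = 0 ∧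
        d2 B x c b a = 0 := fun a b c h0 => by
    have e1 := d2_cycle B x a b c
    have e2 := d2_cycle B x b c a
    have e3 := d2_anti_left h a b c
    have e4 := d2_cycle B x b a c
    have e5 := d2_cycle B x a c b
    refine ⟨?_, ?_, ?_, ?_, ?_⟩ <;> linarith
  obtain ⟨p1, p2, p3, p4, p5⟩ := perms _ _ _ h1
  obtain ⟨q1, q2, q3, q4, q5⟩ := perms _ _ _ h2
  obtain ⟨r1, r2, r3, r4, r5⟩ := perms _ _ _ h3
  obtain ⟨s1, s2, s3, s4, s5⟩ := perms _ _ _ h4
  have hrep2 : ∀ a b, d2 B x a b b = 0 := fun a b => by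
    rw [← d2_cycle B x a b b]
    exact hrep b a
  have hrep3 : ∀ a b, d2 B x a b a = 0 := fun a b => by
    rw [d2_cycle B x a a b]
    exact hrep a b
  fin_cases a <;> fin_cases b <;> fin_cases c <;>
    first | exact hrep _ _ | exact hrep2 _ _ | exact hrep3 _ _ | assumption

end Vale.Agent.P204.Full
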