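import Vale.Agent.P204.Full.Global.Read
import Vale.Agent.P204.Full.Atlas.Setup

/-!
P204, global lemmas: the almost complex structure in charts, the two projections, the cut-off
form and `df ∧ dᶜf` (helper23).
-/

namespace Vale.Agent.P204.Full

open Set Filter
open scoped Manifold ContDiff Topology

set_option linter.unusedSectionVars false

universe u

variable {M : Type u} [TopologicalSpace M] [ChartedSpace E4 M]
variable {J : M → E4 → E4}

section Basic

variable (hJ : IsAlmostComplex J)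
include hJ

theorem IsAlmostComplex.map_neg (x : M) (v : E4) : J x (-v) = -J x v := by
  simpa using (hJ.1 x).map_smul (-1 : ℝ) v

theorem dMap_J_dInv (c : OpenPartialHomeomorph M E4) (y v : E4) :
    dMap c (c.symm y) (J (c.symm y) (dInv c y v)) = ∑ a, v a • dMap c (c.symm y)
      (J (c.symm y) (dInv c y (ev4 a))) := by
  let L : E4 →ₗ[ℝ] E4 := (dMapL c (c.symm y)).toLinearMap ∘ₗ
    (hJ.1 (c.symm y)).mk' _ ∘ₗ (dInvL c y).toLinearMap
  show L v = _
  conv_lhs => rw [← sum_ev4 v, map_sum]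
  exact Finset.sum_congr rfl fun a _ => by rw [map_smul]; rfl

theorem readJ_mulVec (c : OpenPartialHomeomorph M E4) (y v : E4) (p : Fin 4) :
    dMap c (c.symm y) (J (c.symm y) (dInv c y v)) p = (readJ c J y).mulVec v.ofLp p := by
  rw [dMap_J_dInv hJ]
  simp [Matrix.mulVec, dotProduct, readJ, mul_comm]

theorem dMap_J {c : OpenPartialHomeomorph M E4} (hc : IsChart c) {x : M} (hx : x ∈ c.source)
    (v : E4) (p : Fin 4) :
    dMap c x (J x v) p = (readJ c J (c x)).mulVec (dMap c x v).ofLp p := by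
  rw [← readJ_mulVec hJ, c.left_inv hx, dInv_dMap hc hx]

theorem J_dInv {c : OpenPartialHomeomorph M E4} (hc : IsChart c) {y : E4} (hy : y ∈ c.target)
    (v : E4) : J (c.symm y) (dInv c y v) =
      dInv c y (WithLp.toLp 2 ((readJ c J y).mulVec v.ofLp)) := by
  have h : dMap c (c.symm y) (J (c.symm y) (dInv c y v)) =
      WithLp.toLp 2 ((readJ c J y).mulVec v.ofLp) := by
    ext p
    exact readJ_mulVec hJ c y v p
  rw [← h]
  conv_lhs => rw [← dInv_dMap hc (c.map_target hy) (J (c.symm y) (dInv c y v)), c.right_inv hy]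

theorem readJ_mul_self {c : OpenPartialHomeomorph M E4} (hc : IsChart c) {y : E4}
    (hy : y ∈ c.target) : readJ c J y * readJ c J y = -1 := by
  ext p a
  have h1 : (readJ c J y * readJ c J y) p a =
      (readJ c J y).mulVec (dMap c (c.symm y) (J (c.symm y) (dInv c y (ev4 a)))).ofLp p := rfl
  rw [h1, ← readJ_mulVec hJ]
  have h2 := dInv_dMap hc (c.map_target hy) (J (c.symm y) (dInv c y (ev4 a)))
  rw [c.right_inv hy] at h2
  rw [h2, hJ.2.1, ← dMapL_apply, _root_.map_neg, dMapL_apply, dMap_dInv hc hy]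
  simp [ev4_coord, Matrix.one_apply]

theorem readC_comp_J {w : M → E4 → E4 → ℝ} (h : IsAltField w) {c : OpenPartialHomeomorph M E4}
    (hc : IsChart c) {y : E4} (hy : y ∈ c.target) (a b : Fin 4) :
    w (c.symm y) (J (c.symm y) (dInv c y (ev4 a))) (J (c.symm y) (dInv c y (ev4 b))) =
      pullC (readJ c J y) (readC c w y) a b := by
  rw [J_dInv hJ hc hy, J_dInv hJ hc hy, h.dInv_eq_sum]
  simp [pullC, Matrix.mulVec, dotProduct, ev4_coord]

theorem readC_p11 {w : M → E4 → E4 → ℝ} (h : IsAltField w) {c : OpenPartialHomeomorph M E4}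
    (hc : IsChart c) {y : E4} (hy : y ∈ c.target) :
    readC c (p11 J w) y = p11C (readJ c J y) (readC c w y) := by
  funext a b
  simp only [readC, p11, p11C, readC_comp_J hJ h hc hy]

theorem readC_pm {w : M → E4 → E4 → ℝ} (h : IsAltField w) {c : OpenPartialHomeomorph M E4}
    (hc : IsChart c) {y : E4} (hy : y ∈ c.target) :
    readC c (pm J w) y = pmC (readJ c J y) (readC c w y) := by
  funext a b
  simp only [readC, pm, pmC, readC_comp_J hJ h hc hy]

/-- transformation rule of the matrix of `J` -/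
theorem readJ_tr {c c' : OpenPartialHomeomorph M E4} (hc : IsChart c) (hc' : IsChart c') {y : E4}
    (hy : y ∈ ov c c') :
    readJ c J y = jac (tr c' c) (tr c c' y) * (readJ c' J (tr c c' y) * jac (tr c c') y) := by
  ext p a
  have h1 : dInv c y (ev4 a) = dInv c' (tr c c' y) (fderiv ℝ (tr c c') y (ev4 a)) :=
    (dInv_tr hc hc' hy _).symm
  have hy' := tr_mem_ov hy
  set u : E4 := dMap c' (c'.symm (tr c c' y))
    (J (c'.symm (tr c c' y)) (dInv c' (tr c c' y) (fderiv ℝ (tr c c') y (ev4 a)))) with hu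
  have h2 : dMap c (c.symm y) (J (c.symm y) (dInv c y (ev4 a))) =
      fderiv ℝ (tr c' c) (tr c c' y) u := by
    rw [← dMap_dInv_eq_fderiv hc' hc hy', h1, hu]
    have h3 := dInv_dMap hc' (c'.map_target hy'.1)
      (J (c'.symm (tr c c' y)) (dInv c' (tr c c' y) (fderiv ℝ (tr c c') y (ev4 a))))
    rw [c'.right_inv hy'.1] at h3
    rw [h3, symm_tr hy]
  show dMap c (c.symm y) (J (c.symm y) (dInv c y (ev4 a))) p = _
  rw [h2, ← sum_ev4 u, map_sum]
  simp only [map_smul, WithLp.ofLp_sum, WithLp.ofLp_smul, Finset.sum_apply, Pi.smul_apply,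
    smul_eq_mul]
  rw [Matrix.mul_apply]
  refine Finset.sum_congr rfl fun q _ => ?_
  rw [hu, readJ_mulVec hJ, mul_comm]
  rfl

variable [IsManifold (𝓡 4) ∞ M]

theorem contDiffOn_readJ {c : OpenPartialHomeomorph M E4} (hc : IsChart c) (p a : Fin 4) :
    ContDiffOn ℝ ∞ (fun y => readJ c J y p a) c.target := by
  intro y hy
  set x := c.symm y with hx
  have hc' := isChart_chartAt (M := M) x
  have hyo : y ∈ ov c (chartAt E4 x) := ⟨hy, mem_chart_source E4 x⟩
  have hn := (isOpen_ov c (chartAt E4 x)).mem_nhds hyo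
  have hn' := (isOpen_ov (chartAt E4 x) c).mem_nhds (tr_mem_ov hyo)
  have hA : ∀ q r, ContDiffAt ℝ ∞ (fun z => readJ (chartAt E4 x) J z q r)
      (tr c (chartAt E4 x) y) := fun q r => by
    have h2 := hJ.2.2 x (ev4 r)
    rw [extChartAt_target_eq] at h2
    exact ((contDiffOn_piLp 2).1 h2 q).contDiffAt
      ((chartAt E4 x).open_target.mem_nhds (tr_mem_ov hyo).1)
  have h1 := fun q r => ContDiffAt.comp
    (g := fun z => jac (tr (chartAt E4 x) c) z q r) (f := tr c (chartAt E4 x)) y
    ((contDiffOn_jac_tr hc' hc q r).contDiffAt hn') (contDiffAt_tr hc hc' hyo)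
  have h2 := fun q r => ContDiffAt.comp (g := fun z => readJ (chartAt E4 x) J z q r)
    (f := tr c (chartAt E4 x)) y (hA q r) (contDiffAt_tr hc hc' hyo)
  have h3 := fun q r => (contDiffOn_jac_tr hc hc' q r).contDiffAt hn
  refine ((ContDiffAt.sum (s := Finset.univ) fun q _ => (h1 p q).mul
    (ContDiffAt.sum (s := Finset.univ) fun r _ => (h2 q r).mul (h3 r a))).congr_of_eventuallyEq
      (eventually_of_mem hn fun z hz => ?_)).contDiffWithinAt
  show readJ c J z p a = _
  rw [readJ_tr hJ hc hc' hz]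
  simp [Matrix.mul_apply]

theorem isTwoForm_pm {w : M → E4 → E4 → ℝ} (hw : IsTwoForm w) : IsTwoForm (pm J w) := by
  have h : pm J w = w - p11 J w := by
    funext x u v
    simp [pm, p11]
    ring
  rw [h]
  exact (Form M).sub_mem hw (isTwoForm_p11 hJ hw)

/-- the invariant projection on smooth forms -/
noncomputable def p11L : Form M →ₗ[ℝ] Form M where
  toFun w := ⟨p11 J w.1, isTwoForm_p11 hJ w.2⟩
  map_add' w η := Subtype.ext (by funext x u v; simp [p11]; ring)
  map_smul' r w := Subtype.ext (by funext x u v; simp [p11]; ring)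

/-- the anti-invariant projection on smooth forms -/
noncomputable def pmL : Form M →ₗ[ℝ] Form M where
  toFun w := ⟨pm J w.1, isTwoForm_pm hJ w.2⟩
  map_add' w η := Subtype.ext (by funext x u v; simp [pm]; ring)
  map_smul' r w := Subtype.ext (by funext x u v; simp [pm]; ring)

theorem p11L_coe (w : Form M) : (p11L hJ w).1 = p11 J w.1 := rfl

theorem pmL_coe (w : Form M) : (pmL hJ w).1 = pm J w.1 := rfl

omit [IsManifold (𝓡 4) ∞ M] in
theorem apply_JJ {w : M → E4 → E4 → ℝ} (h : IsAltField w) (x : M) (u v : E4) :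
    w x (J x (J x u)) (J x (J x v)) = w x u v := by
  rw [hJ.2.1, hJ.2.1, show -v = (-1 : ℝ) • v by simp, (h.1 x _).map_smul,
    show -u = (-1 : ℝ) • u by simp, (h.isLinear_left x v).map_smul]
  simp

omit [IsManifold (𝓡 4) ∞ M] in
theorem p11_p11 {w : M → E4 → E4 → ℝ} (h : IsAltField w) : p11 J (p11 J w) = p11 J w := by
  funext x u v
  simp only [p11, apply_JJ hJ h]
  ring

omit [IsManifold (𝓡 4) ∞ M] in
theorem pm_pm {w : M → E4 → E4 → ℝ} (h : IsAltField w) : pm J (pm J w) = pm J w := by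
  funext x u v
  simp only [pm, apply_JJ hJ h]
  ring

omit [IsManifold (𝓡 4) ∞ M] in
theorem p11_pm {w : M → E4 → E4 → ℝ} (h : IsAltField w) : p11 J (pm J w) = 0 := by
  funext x u v
  simp only [p11, pm, apply_JJ hJ h, Pi.zero_apply]
  ring

omit [IsManifold (𝓡 4) ∞ M] in
theorem pm_p11 {w : M → E4 → E4 → ℝ} (h : IsAltField w) : pm J (p11 J w) = 0 := by
  funext x u v
  simp only [p11, pm, apply_JJ hJ h, Pi.zero_apply]
  ring

end Basic

theorem p11_add_pm (J : M → E4 → E4) (w : M → E4 → E4 → ℝ) : p11 J w + pm J w = w := by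
  funext x u v
  simp [p11, pm]
  ring

theorem p11_eq_self_iff (J : M → E4 → E4) (w : M → E4 → E4 → ℝ) :
    p11 J w = w ↔ ∀ x u v, w x (J x u) (J x v) = w x u v := by
  constructor
  · intro h x u v
    have := congrFun (congrFun (congrFun h x) u) v
    simp only [p11] at this
    linarith
  · intro h
    funext x u v
    simp only [p11, h]
    ring

/-! ### the cut-off form -/

theorem Setup.isSmoothFn_bump (S : Setup M) (e : ℝ) (x : M) : IsSmoothFn (S.bump e x) := by
  have h : IsSmoothFn fun y =>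
      2 - (1 / e ^ 2) * ∑ k, (S.at_.emb x k - S.at_.emb y k) * (S.at_.emb x k - S.at_.emb y k) :=
    (isSmoothFn_const 2).sub (IsSmoothFn.const_mul _ (IsSmoothFn.sum _ fun k _ =>
      ((isSmoothFn_const _).sub (S.at_.emb_smooth k)).mul
        ((isSmoothFn_const _).sub (S.at_.emb_smooth k))))
  have he : S.bump e x = fun y => Real.smoothTransition (2 - (1 / e ^ 2) *
      ∑ k, (S.at_.emb x k - S.at_.emb y k) * (S.at_.emb x k - S.at_.emb y k)) := by
    funext y
    rw [Setup.bump, EuclideanSpace.real_norm_sq_eq]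
    congr 1
    simp [sq, div_eq_inv_mul]
  rw [he]
  exact h.comp Real.smoothTransition.contDiff

/-- the positive form cut off at scale `e` around `x` -/
noncomputable def bumpForm (S : Setup M) (e : ℝ) (x : M) : Form M :=
  fmul (S.bump e x) (S.isSmoothFn_bump e x) S.F

theorem bumpForm_apply (S : Setup M) (e : ℝ) (x y : M) (u v : E4) :
    (bumpForm S e x).1 y u v = S.bump e x y * S.F.1 y u v := rfl

theorem ballVal_eq (S : Setup M) (L : Form M → ℝ) (e : ℝ) (x : M) :
    ballVal S L e x = L (bumpForm S e x) := by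
  have h : {r : ℝ | ∃ w : Form M, (∀ y u v, w.1 y u v = S.bump e x y * S.F.1 y u v) ∧ r = L w}
      = {L (bumpForm S e x)} := by
    ext r
    constructor
    · rintro ⟨w, hw, rfl⟩
      show L w = _
      congr 1
      exact Subtype.ext (funext fun y => funext fun u => funext fun v => hw y u v)
    · rintro rfl
      exact ⟨bumpForm S e x, fun _ _ _ => rfl, rfl⟩
  rw [ballVal, h, csSup_singleton]

/-! ### differential of a function and `df ∧ dᶜf` -/

theorem dFn_add_arg (f : M → ℝ) (x : M) (u v : E4) : dFn f x (u + v) = dFn f x u + dFn f x v :=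
  map_add (mfderiv (𝓡 4) 𝓘(ℝ, ℝ) f x) u v

theorem dFn_smul_arg (f : M → ℝ) (x : M) (r : ℝ) (v : E4) : dFn f x (r • v) = r * dFn f x v :=
  map_smul (mfderiv (𝓡 4) 𝓘(ℝ, ℝ) f x) r v

theorem dFn_neg_arg (f : M → ℝ) (x : M) (v : E4) : dFn f x (-v) = -dFn f x v :=
  map_neg (mfderiv (𝓡 4) 𝓘(ℝ, ℝ) f x) v

theorem dFn_eq_fderiv [IsManifold (𝓡 4) ∞ M] {f : M → ℝ} (hf : IsSmoothFn f)
    {c : OpenPartialHomeomorph M E4} (hc : IsChart c) {x : M} (hx : x ∈ c.source) (v : E4) :
    dFn f x v = fderiv ℝ (fun y => f (c.symm y)) (c x) (dMap c x v) := by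
  have hd : MDifferentiableAt (𝓡 4) 𝓘(ℝ, ℝ) (fun y => f (c.symm y)) (c x) :=
    ((hf.contDiffAt hc (c.map_source hx)).differentiableAt (by decide)).mdifferentiableAt
  have h := mfderiv_comp x hd (hc.mdifferentiable.mdifferentiableAt hx)
  have he : ((fun y => f (c.symm y)) ∘ c) =ᶠ[𝓝 x] f := by
    filter_upwards [c.open_source.mem_nhds hx] with z hz
    simp [c.left_inv hz]
  rw [he.mfderiv_eq] at h
  rw [← mfderiv_eq_fderiv]
  exact congrArg (fun L : E4 →L[ℝ] ℝ => L v) h

theorem dFn_dInv [IsManifold (𝓡 4) ∞ M] {f : M → ℝ} (hf : IsSmoothFn f)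
    {c : OpenPartialHomeomorph M E4} (hc : IsChart c) {y : E4} (hy : y ∈ c.target) (v : E4) :
    dFn f (c.symm y) (dInv c y v) = fderiv ℝ (fun z => f (c.symm z)) y v := by
  rw [dFn_eq_fderiv hf hc (c.map_target hy), c.right_inv hy, dMap_dInv hc hy]

theorem isAltField_dfdcf (hJ : IsAlmostComplex J) (f : M → ℝ) : IsAltField (dfdcf J f) := by
  refine ⟨fun x u => ⟨fun a b => ?_, fun r a => ?_⟩, fun x u v => ?_⟩
  · simp only [dfdcf, dFn_add_arg, (hJ.1 x).map_add]
    ring
  · simp only [dfdcf, dFn_smul_arg, (hJ.1 x).map_smul, smul_eq_mul]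
    ring
  · simp only [dfdcf]
    ring

theorem p11_dfdcf (hJ : IsAlmostComplex J) (f : M → ℝ) : p11 J (dfdcf J f) = dfdcf J f := by
  rw [p11_eq_self_iff]
  intro x u v
  simp only [dfdcf, hJ.2.1, dFn_neg_arg]
  ring

theorem nonnegJ_dfdcf (hJ : IsAlmostComplex J) (f : M → ℝ) : NonnegJ J (dfdcf J f) := by
  intro x v
  simp only [dfdcf, hJ.2.1, dFn_neg_arg]
  nlinarith [sq_nonneg (dFn f x v), sq_nonneg (dFn f x (J x v))]

theorem readC_dfdcf [IsManifold (𝓡 4) ∞ M] (hJ : IsAlmostComplex J) {f : M → ℝ}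
    (hf : IsSmoothFn f) {c : OpenPartialHomeomorph M E4} (hc : IsChart c) {y : E4}
    (hy : y ∈ c.target) :
    readC c (dfdcf J f) y =
      wedge11 ((readJ c J y).transpose.mulVec fun i => pd (fun z => f (c.symm z)) i y)
        (fun i => pd (fun z => f (c.symm z)) i y) := by
  funext a b
  simp only [readC, dfdcf, J_dInv hJ hc hy, dFn_dInv hf hc hy]
  have h : ∀ q : Fin 4, fderiv ℝ (fun z => f (c.symm z)) y
      (WithLp.toLp 2 ((readJ c J y).mulVec (ev4 q).ofLp)) =
        (readJ c J y).transpose.mulVec (fun i => pd (fun z => f (c.symm z)) i y) q := fun q => by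
    conv_lhs => rw [← sum_ev4 (WithLp.toLp 2 ((readJ c J y).mulVec (ev4 q).ofLp)), map_sum]
    simp [Matrix.mulVec, dotProduct, Matrix.transpose_apply, pd, map_smul, ev4_coord]
  rw [h, h]
  simp only [wedge11, pd]

theorem isTwoForm_dfdcf [IsManifold (𝓡 4) ∞ M] (hJ : IsAlmostComplex J) {f : M → ℝ}
    (hf : IsSmoothFn f) : IsTwoForm (dfdcf J f) := by
  refine isTwoForm_of_readC (isAltField_dfdcf hJ f) fun p => ?_
  set c := chartAt E4 p
  have hc := isChart_chartAt (M := M) p
  have hp : p ∈ c.source := mem_chart_source E4 p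
  have hn := c.open_target.mem_nhds (c.map_source hp)
  refine ⟨c, hc, hp, ?_⟩
  have hg : ∀ i, ContDiffAt ℝ ∞ (fun z => pd (fun z => f (c.symm z)) i z) (c p) := fun i =>
    (((hf.contDiffOn hc).fderiv_of_isOpen c.open_target (m := ∞) (by simp)).clm_apply
      contDiffOn_const).contDiffAt hn
  have hA := fun q r => (contDiffOn_readJ hJ hc q r).contDiffAt hn
  have hu : ∀ q, ContDiffAt ℝ ∞ (fun z => (readJ c J z).transpose.mulVec
      (fun i => pd (fun z => f (c.symm z)) i z) q) (c p) := fun q => by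
    simp only [Matrix.mulVec, dotProduct, Matrix.transpose_apply]
    exact ContDiffAt.sum fun i _ => (hA i q).mul (hg i)
  refine ContDiffAt.congr_of_eventuallyEq ?_
    (eventually_of_mem hn fun z hz => readC_dfdcf hJ hf hc hz)
  refine contDiffAt_pi.2 fun a => contDiffAt_pi.2 fun b => ?_
  exact ((hu a).mul (hg b)).sub ((hu b).mul (hg a))

end Vale.Agent.P204.Full
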