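import Vale.Agent.P204.Full.Global.JRead

/-!
P204, global lemmas: the seminorms `cN`, the pointwise norm `nrm`, and operators of order zero
(helper23).
-/

namespace Vale.Agent.P204.Full

open Set Filter Metric
open scoped Manifold ContDiff Topology

set_option linter.unusedSectionVars false

universe u

/-! ### flat lemmas -/

theorem iteratedFDeriv_zero_le_norm {G : Type*} [NormedAddCommGroup G] [NormedSpace ℝ G]
    (f : E4 → G) (y : E4) : ‖iteratedFDeriv ℝ 0 f y‖ = ‖f y‖ := norm_iteratedFDeriv_zero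

theorem continuousOn_iteratedFDeriv_of_isOpen {G : Type*} [NormedAddCommGroup G]
    [NormedSpace ℝ G] {f : E4 → G} {U : Set E4} (hU : IsOpen U) (hf : ContDiffOn ℝ ∞ f U)
    (j : ℕ) : ContinuousOn (iteratedFDeriv ℝ j f) U :=
  (hf.continuousOn_iteratedFDerivWithin (WithTop.coe_le_coe.mpr le_top) hU.uniqueDiffOn).congr
    fun _ hy => (iteratedFDerivWithin_of_isOpen j hU hy).symm

/-- an operator of order zero with smooth coefficients is bounded in every `C^N` seminorm on a
compact subset -/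
theorem exists_clm_bound {F G : Type} [NormedAddCommGroup F] [NormedSpace ℝ F]
    [NormedAddCommGroup G] [NormedSpace ℝ G] {U K : Set E4} (hU : IsOpen U) (hK : IsCompact K)
    (hKU : K ⊆ U) {L : E4 → F →L[ℝ] G} (hL : ContDiffOn ℝ ∞ L U) (N : ℕ) :
    ∃ C, 0 ≤ C ∧ ∀ g : E4 → F, ContDiffOn ℝ ∞ g U → ∀ y ∈ K, ∀ j ≤ N,
      ‖iteratedFDeriv ℝ j (fun z => L z (g z)) y‖ ≤
        C * ∑ k ∈ Finset.range (j + 1), ‖iteratedFDeriv ℝ k g y‖ := by
  choose B hB using fun k : ℕ => hK.exists_bound_of_continuousOn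
    ((continuousOn_iteratedFDeriv_of_isOpen hU hL k).mono hKU)
  refine ⟨2 ^ N * ∑ k ∈ Finset.range (N + 1), max (B k) 0, by positivity, fun g hg y hy j hj => ?_⟩
  rw [← iteratedFDerivWithin_of_isOpen j hU (hKU hy)]
  refine (norm_iteratedFDerivWithin_clm_apply (N := ∞) hL hg hU.uniqueDiffOn (hKU hy)
    (WithTop.coe_le_coe.mpr le_top)).trans ?_
  rw [← Finset.sum_range_reflect (fun k => ‖iteratedFDeriv ℝ k g y‖) (j + 1), Finset.mul_sum]
  refine Finset.sum_le_sum fun i hi => ?_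
  rw [Finset.mem_range, Nat.lt_succ_iff] at hi
  rw [show j + 1 - 1 - i = j - i by omega, iteratedFDerivWithin_of_isOpen i hU (hKU hy),
    iteratedFDerivWithin_of_isOpen (j - i) hU (hKU hy)]
  gcongr
  · calc (j.choose i : ℝ) ≤ ((2 ^ j : ℕ) : ℝ) := by exact_mod_cast j.choose_le_two_pow i
      _ ≤ 2 ^ N := by push_cast; exact pow_le_pow_right₀ one_le_two hj
  · refine ((hB i y hy).trans (le_max_left _ 0)).trans ?_
    exact Finset.single_le_sum (f := fun k => max (B k) 0) (fun k _ => le_max_right _ _)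
      (Finset.mem_range.2 (by omega))

/-- pullback of coefficients by a matrix, as a continuous linear map -/
noncomputable def pullL (A : Matrix (Fin 4) (Fin 4) ℝ) : C2 →L[ℝ] C2 :=
  LinearMap.toContinuousLinearMap
    { toFun := pullC A
      map_add' := fun u v => by
        funext a b
        simp only [pullC, Pi.add_apply, mul_add, Finset.sum_add_distrib]
      map_smul' := fun r u => by
        funext a b
        simp only [pullC, Pi.smul_apply, smul_eq_mul, Finset.mul_sum, RingHom.id_apply]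
        exact Finset.sum_congr rfl fun c _ => Finset.sum_congr rfl fun d _ => by ring }

theorem pullL_apply (A : Matrix (Fin 4) (Fin 4) ℝ) (W : C2) : pullL A W = pullC A W := rfl

theorem contDiffOn_pullL {s : Set E4} {A : E4 → Matrix (Fin 4) (Fin 4) ℝ}
    (hA : ∀ p a, ContDiffOn ℝ ∞ (fun y => A y p a) s) :
    ContDiffOn ℝ ∞ (fun y => pullL (A y)) s :=
  contDiffOn_clm_apply.2 fun W => contDiffOn_pullC hA (contDiffOn_const (c := W))

theorem norm_pullC_le (A : Matrix (Fin 4) (Fin 4) ℝ) {B : ℝ} (hB : ∀ p a, |A p a| ≤ B) (W : C2) :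
    ‖pullC A W‖ ≤ 16 * B ^ 2 * ‖W‖ := by
  have hB0 : 0 ≤ B := (abs_nonneg _).trans (hB 0 0)
  refine (pi_norm_le_iff_of_nonneg (by positivity)).2 fun a =>
    (pi_norm_le_iff_of_nonneg (by positivity)).2 fun b => ?_
  rw [Real.norm_eq_abs]
  calc |pullC A W a b| ≤ ∑ _c : Fin 4, ∑ _d : Fin 4, B * B * ‖W‖ := by
        refine (Finset.abs_sum_le_sum_abs _ _).trans (Finset.sum_le_sum fun c _ =>
          (Finset.abs_sum_le_sum_abs _ _).trans (Finset.sum_le_sum fun d _ => ?_))
        rw [abs_mul, abs_mul]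
        gcongr
        · exact hB c a
        · exact hB d b
        · exact (Real.norm_eq_abs _).symm.le.trans
            ((norm_le_pi_norm (W c) d).trans (norm_le_pi_norm W c))
    _ = 16 * B ^ 2 * ‖W‖ := by simp; ring

variable {M : Type u} [TopologicalSpace M] [ChartedSpace E4 M]

namespace Setup

variable (S : Setup M)

theorem closedBall3_subset (i : Fin S.at_.n) :
    closedBall (0 : E4) 3 ⊆ (S.at_.chart i).target :=
  (closedBall_subset_closedBall (by norm_num)).trans (S.at_.ball_subset i)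

theorem symm_mem_source (i : Fin S.at_.n) {y : E4} (hy : y ∈ closedBall (0 : E4) 4) :
    (S.at_.chart i).symm y ∈ (S.at_.chart i).source :=
  (S.at_.chart i).map_target (S.at_.ball_subset i hy)

theorem mem_of_rho_ne {i : Fin S.at_.n} {x : M} (h : S.at_.rho i x ≠ 0) :
    x ∈ (S.at_.chart i).source ∧ S.at_.chart i x ∈ ball (0 : E4) 1 :=
  S.at_.rho_support i (subset_tsupport _ h)

theorem cN_nonneg (N : ℕ) (w : M → E4 → E4 → ℝ) : 0 ≤ S.cN N w :=
  Finset.sum_nonneg fun _ _ => Finset.sum_nonneg fun _ _ =>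
    Real.iSup_nonneg fun _ => norm_nonneg _

theorem nrm_nonneg (w : M → E4 → E4 → ℝ) (x : M) : 0 ≤ S.nrm w x :=
  Finset.sum_nonneg fun i _ => mul_nonneg (S.at_.rho_nonneg i x) (norm_nonneg _)

theorem nrm_add_le (w η : M → E4 → E4 → ℝ) (x : M) :
    S.nrm (w + η) x ≤ S.nrm w x + S.nrm η x := by
  simp only [Setup.nrm, ← Finset.sum_add_distrib, ← mul_add]
  gcongr with i
  · exact S.at_.rho_nonneg i x
  · exact norm_add_le (S.read i w (S.at_.chart i x)) (S.read i η (S.at_.chart i x))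

theorem nrm_smul (r : ℝ) (w : M → E4 → E4 → ℝ) (x : M) :
    S.nrm (r • w) x = |r| * S.nrm w x := by
  simp only [Setup.nrm, Finset.mul_sum, Setup.read, readC_smul, Pi.smul_apply, norm_smul,
    Real.norm_eq_abs]
  exact Finset.sum_congr rfl fun i _ => by ring

theorem nrm_zero (x : M) : S.nrm (0 : M → E4 → E4 → ℝ) x = 0 := by
  have := S.nrm_smul 0 (0 : M → E4 → E4 → ℝ) x
  simpa using this

variable [IsManifold (𝓡 4) ∞ M]

theorem contDiffOn_read (i : Fin S.at_.n) {w : M → E4 → E4 → ℝ} (hw : IsTwoForm w) :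
    ContDiffOn ℝ ∞ (S.read i w) (S.at_.chart i).target :=
  hw.contDiffOn_readC (S.at_.mem_maximal i)

theorem contDiffAt_read (i : Fin S.at_.n) {w : M → E4 → E4 → ℝ} (hw : IsTwoForm w) {y : E4}
    (hy : y ∈ closedBall (0 : E4) 4) : ContDiffAt ℝ ∞ (S.read i w) y :=
  hw.contDiffAt_readC (S.at_.mem_maximal i) (S.at_.ball_subset i hy)

theorem continuousOn_read_deriv (i : Fin S.at_.n) {w : M → E4 → E4 → ℝ} (hw : IsTwoForm w)
    (j : ℕ) : ContinuousOn (iteratedFDeriv ℝ j (S.read i w)) (S.at_.chart i).target :=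
  continuousOn_iteratedFDeriv_of_isOpen (S.at_.chart i).open_target (S.contDiffOn_read i hw) j

theorem bddAbove_read (i : Fin S.at_.n) {w : M → E4 → E4 → ℝ} (hw : IsTwoForm w) (j : ℕ) :
    BddAbove (range fun y : closedBall (0 : E4) 3 => ‖iteratedFDeriv ℝ j (S.read i w) y‖) := by
  obtain ⟨B, hB⟩ := (isCompact_closedBall (0 : E4) 3).exists_bound_of_continuousOn
    ((S.continuousOn_read_deriv i hw j).mono (S.closedBall3_subset i))
  exact ⟨B, by rintro _ ⟨y, rfl⟩; exact hB y y.2⟩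

theorem deriv_le_cN {N j : ℕ} (hj : j ≤ N) (i : Fin S.at_.n) {w : M → E4 → E4 → ℝ}
    (hw : IsTwoForm w) {y : E4} (hy : y ∈ closedBall (0 : E4) 3) :
    ‖iteratedFDeriv ℝ j (S.read i w) y‖ ≤ S.cN N w := by
  refine (le_ciSup (S.bddAbove_read i hw j) ⟨y, hy⟩).trans ?_
  refine le_trans ?_ (Finset.single_le_sum (fun k _ => Finset.sum_nonneg fun _ _ =>
    Real.iSup_nonneg fun _ => norm_nonneg _) (Finset.mem_univ i))
  exact Finset.single_le_sum (f := fun k => ⨆ y : closedBall (0 : E4) 3,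
    ‖iteratedFDeriv ℝ k (S.read i w) y‖) (fun _ _ => Real.iSup_nonneg fun _ => norm_nonneg _)
    (Finset.mem_range.2 (by omega))

theorem read_le_cN {N : ℕ} (i : Fin S.at_.n) {w : M → E4 → E4 → ℝ}
    (hw : IsTwoForm w) {y : E4} (hy : y ∈ closedBall (0 : E4) 3) :
    ‖S.read i w y‖ ≤ S.cN N w := by
  have h := S.deriv_le_cN (N := N) (Nat.zero_le _) i hw hy
  rwa [norm_iteratedFDeriv_zero] at h

theorem read_apply_le_cN {N : ℕ} (i : Fin S.at_.n) {w : M → E4 → E4 → ℝ}
    (hw : IsTwoForm w) {y : E4} (hy : y ∈ closedBall (0 : E4) 3) (a b : Fin 4) :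
    |S.read i w y a b| ≤ S.cN N w :=
  ((Real.norm_eq_abs _).symm.le.trans ((norm_le_pi_norm (S.read i w y a) b).trans
    (norm_le_pi_norm (S.read i w y) a))).trans (S.read_le_cN i hw hy)

omit [IsManifold (𝓡 4) ∞ M] in
theorem cN_le_of_bound {N : ℕ} {w : M → E4 → E4 → ℝ} {B : ℝ} (hB : 0 ≤ B)
    (h : ∀ i, ∀ j ≤ N, ∀ y ∈ closedBall (0 : E4) 3, ‖iteratedFDeriv ℝ j (S.read i w) y‖ ≤ B) :
    S.cN N w ≤ S.at_.n * (N + 1) * B := by
  calc S.cN N w ≤ ∑ _i : Fin S.at_.n, ∑ _j ∈ Finset.range (N + 1), B :=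
        Finset.sum_le_sum fun i _ => Finset.sum_le_sum fun j hj =>
          Real.iSup_le (fun y => h i j (Nat.lt_succ_iff.1 (Finset.mem_range.1 hj)) y y.2) hB
    _ = _ := by simp; ring

omit [IsManifold (𝓡 4) ∞ M] in
theorem cN_mono {N N' : ℕ} (h : N ≤ N') (w : M → E4 → E4 → ℝ) : S.cN N w ≤ S.cN N' w :=
  Finset.sum_le_sum fun _ _ => Finset.sum_le_sum_of_subset_of_nonneg
    (Finset.range_subset_range.2 (by omega)) fun _ _ _ => Real.iSup_nonneg fun _ => norm_nonneg _

theorem iteratedFDeriv_read_add (i : Fin S.at_.n) {w η : M → E4 → E4 → ℝ} (hw : IsTwoForm w)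
    (hη : IsTwoForm η) (j : ℕ) {y : E4} (hy : y ∈ closedBall (0 : E4) 4) :
    iteratedFDeriv ℝ j (S.read i (w + η)) y =
      iteratedFDeriv ℝ j (S.read i w) y + iteratedFDeriv ℝ j (S.read i η) y := by
  simp only [← iteratedFDerivWithin_univ]
  exact iteratedFDerivWithin_add_apply
    ((S.contDiffAt_read i hw hy).of_le (WithTop.coe_le_coe.mpr le_top)).contDiffWithinAt
    ((S.contDiffAt_read i hη hy).of_le (WithTop.coe_le_coe.mpr le_top)).contDiffWithinAt
    uniqueDiffOn_univ (mem_univ _)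

theorem cN_add_le (N : ℕ) {w η : M → E4 → E4 → ℝ} (hw : IsTwoForm w) (hη : IsTwoForm η) :
    S.cN N (w + η) ≤ S.cN N w + S.cN N η := by
  simp only [Setup.cN, ← Finset.sum_add_distrib]
  refine Finset.sum_le_sum fun i _ => Finset.sum_le_sum fun j _ => ?_
  refine Real.iSup_le (fun y => ?_)
    (add_nonneg (Real.iSup_nonneg fun _ => norm_nonneg _) (Real.iSup_nonneg fun _ => norm_nonneg _))
  rw [S.iteratedFDeriv_read_add i hw hη j (closedBall_subset_closedBall (by norm_num) y.2)]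
  exact (norm_add_le _ _).trans
    (add_le_add (le_ciSup (S.bddAbove_read i hw j) y) (le_ciSup (S.bddAbove_read i hη j) y))

theorem cN_smul (N : ℕ) (r : ℝ) {w : M → E4 → E4 → ℝ} (hw : IsTwoForm w) :
    S.cN N (r • w) = |r| * S.cN N w := by
  simp only [Setup.cN, Finset.mul_sum, Real.mul_iSup_of_nonneg (abs_nonneg r)]
  refine Finset.sum_congr rfl fun i _ => Finset.sum_congr rfl fun j _ => iSup_congr fun y => ?_
  rw [Setup.read, readC_smul, iteratedFDeriv_const_smul_apply, norm_smul, Real.norm_eq_abs]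
  · rfl
  · exact (S.contDiffAt_read i hw (closedBall_subset_closedBall (by norm_num) y.2)).of_le
      (WithTop.coe_le_coe.mpr le_top)

omit [IsManifold (𝓡 4) ∞ M] in
theorem cN_neg (N : ℕ) (w : M → E4 → E4 → ℝ) : S.cN N (-w) = S.cN N w := by
  simp only [Setup.cN, Setup.read, readC_neg, iteratedFDeriv_neg_apply, norm_neg]

theorem cN_sub_le (N : ℕ) {w η : M → E4 → E4 → ℝ} (hw : IsTwoForm w) (hη : IsTwoForm η) :
    S.cN N (w - η) ≤ S.cN N w + S.cN N η := by
  rw [sub_eq_add_neg]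
  exact (S.cN_add_le N hw ((Form M).neg_mem hη)).trans_eq (by rw [S.cN_neg])

theorem cN_zero (N : ℕ) : S.cN N (0 : M → E4 → E4 → ℝ) = 0 := by
  have h := S.cN_smul N 0 (w := (0 : M → E4 → E4 → ℝ)) (Form M).zero_mem
  simpa using h

/-- an operator of order zero is bounded in `cN` -/
theorem exists_cN_bound_of_read (N : ℕ) {L : Fin S.at_.n → E4 → C2 →L[ℝ] C2}
    (hL : ∀ i, ContDiffOn ℝ ∞ (L i) (S.at_.chart i).target) :
    ∃ C, 0 ≤ C ∧ ∀ w η : M → E4 → E4 → ℝ, IsTwoForm w →
      (∀ i, ∀ y ∈ (S.at_.chart i).target, S.read i η y = L i y (S.read i w y)) →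
        S.cN N η ≤ C * S.cN N w := by
  choose C hC0 hC using fun i => exists_clm_bound (S.at_.chart i).open_target
    (isCompact_closedBall (0 : E4) 3) (S.closedBall3_subset i) (hL i) N
  refine ⟨S.at_.n * (N + 1) * ((∑ i, C i) * (N + 1)), by
    have := Finset.sum_nonneg fun i (_ : i ∈ Finset.univ) => hC0 i
    positivity, fun w η hw he => ?_⟩
  have hC' := Finset.sum_nonneg fun i (_ : i ∈ Finset.univ) => hC0 i
  have hw0 := S.cN_nonneg N w
  refine (S.cN_le_of_bound (B := (∑ i, C i) * (N + 1) * S.cN N w) (by positivity)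
    fun i j hj y hy => ?_).trans_eq (by ring)
  have hyt := S.closedBall3_subset i hy
  have hev : S.read i η =ᶠ[𝓝 y] fun z => L i z (S.read i w z) :=
    eventually_of_mem ((S.at_.chart i).open_target.mem_nhds hyt) fun z hz => he i z hz
  rw [(hev.iteratedFDeriv ℝ j).eq_of_nhds]
  refine (hC i _ (S.contDiffOn_read i hw) y hy j hj).trans ?_
  rw [mul_assoc]
  refine mul_le_mul (Finset.single_le_sum (fun k _ => hC0 k) (Finset.mem_univ i)) ?_
    (Finset.sum_nonneg fun _ _ => norm_nonneg _) hC'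
  calc ∑ k ∈ Finset.range (j + 1), ‖iteratedFDeriv ℝ k (S.read i w) y‖
      ≤ ∑ _k ∈ Finset.range (j + 1), S.cN N w := Finset.sum_le_sum fun k hk =>
        S.deriv_le_cN (le_trans (Nat.lt_succ_iff.1 (Finset.mem_range.1 hk)) hj) i hw hy
    _ ≤ ((N : ℝ) + 1) * S.cN N w := by
        simp only [Finset.sum_const, Finset.card_range, nsmul_eq_mul]
        push_cast
        gcongr

theorem exists_cN_p11 (N : ℕ) : ∃ C, 0 ≤ C ∧ ∀ w : M → E4 → E4 → ℝ, IsTwoForm w →
    S.cN N (p11 S.J w) ≤ C * S.cN N w := by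
  obtain ⟨C, hC, h⟩ := S.exists_cN_bound_of_read N (L := fun i y =>
    (1 / 2 : ℝ) • (ContinuousLinearMap.id ℝ C2 + pullL (readJ (S.at_.chart i) S.J y)))
    fun i => (contDiffOn_const.add
      (contDiffOn_pullL (contDiffOn_readJ S.isJ (S.at_.mem_maximal i)))).const_smul _
  refine ⟨C, hC, fun w hw => h w _ hw fun i y hy => ?_⟩
  rw [Setup.read, readC_p11 S.isJ hw.isAltField (S.at_.mem_maximal i) hy]
  funext a b
  simp [p11C, pullL_apply, Setup.read]
  ring

theorem exists_cN_pm (N : ℕ) : ∃ C, 0 ≤ C ∧ ∀ w : M → E4 → E4 → ℝ, IsTwoForm w →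
    S.cN N (pm S.J w) ≤ C * S.cN N w := by
  obtain ⟨C, hC, h⟩ := S.exists_cN_bound_of_read N (L := fun i y =>
    (1 / 2 : ℝ) • (ContinuousLinearMap.id ℝ C2 - pullL (readJ (S.at_.chart i) S.J y)))
    fun i => (contDiffOn_const.sub
      (contDiffOn_pullL (contDiffOn_readJ S.isJ (S.at_.mem_maximal i)))).const_smul _
  refine ⟨C, hC, fun w hw => h w _ hw fun i y hy => ?_⟩
  rw [Setup.read, readC_pm S.isJ hw.isAltField (S.at_.mem_maximal i) hy]
  funext a b
  simp [pmC, pullL_apply, Setup.read]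
  ring

theorem exists_cN_smulFn (N : ℕ) {f : M → ℝ} (hf : IsSmoothFn f) :
    ∃ C, 0 ≤ C ∧ ∀ w : M → E4 → E4 → ℝ, IsTwoForm w → S.cN N (smulFn f w) ≤ C * S.cN N w := by
  obtain ⟨C, hC, h⟩ := S.exists_cN_bound_of_read N (L := fun i y =>
    f ((S.at_.chart i).symm y) • ContinuousLinearMap.id ℝ C2)
    fun i => (hf.contDiffOn (S.at_.mem_maximal i)).smul contDiffOn_const
  exact ⟨C, hC, fun w hw => h w _ hw fun i y hy => rfl⟩

theorem nrm_le_cN (N : ℕ) {w : M → E4 → E4 → ℝ} (hw : IsTwoForm w) (x : M) :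
    S.nrm w x ≤ S.cN N w := by
  calc S.nrm w x ≤ ∑ i, S.at_.rho i x * S.cN N w := by
        refine Finset.sum_le_sum fun i _ => ?_
        rcases eq_or_ne (S.at_.rho i x) 0 with h | h
        · simp [h]
        · exact mul_le_mul_of_nonneg_left (S.read_le_cN i hw (ball_subset_closedBall.trans
            (closedBall_subset_closedBall (by norm_num)) (S.mem_of_rho_ne h).2))
            (S.at_.rho_nonneg i x)
    _ = S.cN N w := by rw [← Finset.sum_mul, S.at_.rho_sum, one_mul]

/-- in every atlas chart the coefficients are controlled by the pointwise norm -/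
theorem exists_read_le_nrm : ∃ C, 0 < C ∧ ∀ w : M → E4 → E4 → ℝ, IsAltField w → ∀ i,
    ∀ y ∈ closedBall (0 : E4) 4,
      ‖S.read i w y‖ ≤ C * S.nrm w ((S.at_.chart i).symm y) := by
  have key : ∀ i k, ∃ B : ℝ, ∀ y ∈ closedBall (0 : E4) 4,
      S.at_.rho k ((S.at_.chart i).symm y) ≠ 0 →
        ∀ p a, |jac (tr (S.at_.chart i) (S.at_.chart k)) y p a| ≤ B := by
    intro i k
    set K : Set E4 := closedBall (0 : E4) 4 ∩
      (S.at_.chart i).symm ⁻¹' tsupport (S.at_.rho k) with hK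
    have hKc : IsCompact K := IsCompact.of_isClosed_subset (isCompact_closedBall _ _)
      (((S.at_.chart i).symm.continuousOn.mono (S.at_.ball_subset i)).preimage_isClosed_of_isClosed
        isClosed_closedBall (isClosed_tsupport _)) inter_subset_left
    have hKo : K ⊆ ov (S.at_.chart i) (S.at_.chart k) := fun y hy =>
      ⟨S.at_.ball_subset i hy.1, (S.at_.rho_support k hy.2).1⟩
    choose B hB using fun q : Fin 4 × Fin 4 => hKc.exists_bound_of_continuousOn
      ((contDiffOn_jac_tr (S.at_.mem_maximal i) (S.at_.mem_maximal k) q.1 q.2).continuousOn.mono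
        hKo)
    refine ⟨∑ q, |B q|, fun y hy h p a => ?_⟩
    refine ((Real.norm_eq_abs _).symm.le.trans ((hB (p, a) y ⟨hy, subset_tsupport _ h⟩).trans
      (le_abs_self _))).trans ?_
    exact Finset.single_le_sum (f := fun q => |B q|) (fun _ _ => abs_nonneg _)
      (Finset.mem_univ (p, a))
  choose B hB using key
  set C := 16 * (∑ i, ∑ k, |B i k|) ^ 2 + 1 with hC
  refine ⟨C, by positivity, fun w hw i y hy => ?_⟩
  set x := (S.at_.chart i).symm y with hx
  calc ‖S.read i w y‖ = ∑ k, S.at_.rho k x * ‖S.read i w y‖ := by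
        rw [← Finset.sum_mul, S.at_.rho_sum, one_mul]
    _ ≤ ∑ k, S.at_.rho k x * (C * ‖S.read k w (S.at_.chart k x)‖) := by
        refine Finset.sum_le_sum fun k _ => ?_
        rcases eq_or_ne (S.at_.rho k x) 0 with h | h
        · simp [h]
        refine mul_le_mul_of_nonneg_left ?_ (S.at_.rho_nonneg k x)
        have hov : y ∈ ov (S.at_.chart i) (S.at_.chart k) :=
          ⟨S.at_.ball_subset i hy, (S.mem_of_rho_ne h).1⟩
        show ‖readC (S.at_.chart i) w y‖ ≤ _
        rw [hw.readC_tr (S.at_.mem_maximal i) (S.at_.mem_maximal k) hov]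
        refine (norm_pullC_le _ (B := ∑ i, ∑ k, |B i k|) (fun p a => (hB i k y hy h p a).trans
          ((le_abs_self _).trans (le_trans ?_ (Finset.single_le_sum
            (f := fun i => ∑ k, |B i k|) (fun _ _ => Finset.sum_nonneg fun _ _ => abs_nonneg _)
            (Finset.mem_univ i))))) _).trans ?_
        · exact Finset.single_le_sum (f := fun k => |B i k|) (fun _ _ => abs_nonneg _)
            (Finset.mem_univ k)
        · exact mul_le_mul_of_nonneg_right (le_add_of_nonneg_right zero_le_one) (norm_nonneg _)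
    _ = C * S.nrm w x := by
        rw [Setup.nrm, Finset.mul_sum]
        exact Finset.sum_congr rfl fun k _ => by ring

end Setup

end Vale.Agent.P204.Full
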