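import Vale.Agent.P204.Full.Global.Norms
import Vale.Agent.P204.Full.Global.Vol

/-!
P204, global lemmas: algebra of the norms `sN` and `l2` (helper23).
-/

namespace Vale.Agent.P204.Full

open Set Filter Metric MeasureTheory
open scoped Manifold ContDiff Topology

set_option linter.unusedSectionVars false

universe u

/-- Minkowski's inequality for two continuous functions -/
theorem sqrt_integral_sq_add_le {α : Type*} [MeasurableSpace α] {μ : Measure α} {f g h : α → ℝ}
    (hh : ∀ x, 0 ≤ h x) (hle : ∀ᵐ x ∂μ, h x ≤ f x + g x)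
    (hff : Integrable (fun x => f x ^ 2) μ) (hgg : Integrable (fun x => g x ^ 2) μ)
    (hfg : Integrable (fun x => f x * g x) μ) :
    Real.sqrt (∫ x, h x ^ 2 ∂μ) ≤
      Real.sqrt (∫ x, f x ^ 2 ∂μ) + Real.sqrt (∫ x, g x ^ 2 ∂μ) := by
  set A := ∫ x, f x ^ 2 ∂μ
  set B := ∫ x, g x ^ 2 ∂μ
  have hA : 0 ≤ A := integral_nonneg fun _ => sq_nonneg _
  have hB : 0 ≤ B := integral_nonneg fun _ => sq_nonneg _
  have hI : ∫ x, h x ^ 2 ∂μ ≤ A + 2 * (∫ x, f x * g x ∂μ) + B := by
    have h1 : Integrable (fun x => f x ^ 2 + 2 * (f x * g x) + g x ^ 2) μ :=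
      (hff.add (hfg.const_mul 2)).add hgg
    refine (integral_mono_of_nonneg (Eventually.of_forall fun x => sq_nonneg _) h1
      (hle.mono fun x hx => ?_)).trans_eq ?_
    · calc h x ^ 2 ≤ (f x + g x) ^ 2 := pow_le_pow_left₀ (hh x) hx 2
        _ = f x ^ 2 + 2 * (f x * g x) + g x ^ 2 := by ring
    · rw [integral_add (hff.fun_add (hfg.const_mul 2)) hgg, integral_add hff (hfg.const_mul 2),
        integral_const_mul]
  have hcs : (∫ x, f x * g x ∂μ) ≤ Real.sqrt A * Real.sqrt B := by
    have key : ∀ t : ℝ, 0 ≤ A + 2 * t * (∫ x, f x * g x ∂μ) + t ^ 2 * B := fun t => by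
      have h0 : 0 ≤ ∫ x, (f x + t * g x) ^ 2 ∂μ := integral_nonneg fun _ => sq_nonneg _
      have e : (fun x => (f x + t * g x) ^ 2) =
          fun x => f x ^ 2 + 2 * t * (f x * g x) + t ^ 2 * g x ^ 2 := funext fun x => by ring
      rw [e, integral_add (hff.fun_add (hfg.const_mul _)) (hgg.const_mul _),
        integral_add hff (hfg.const_mul _), integral_const_mul, integral_const_mul] at h0
      exact h0
    have hd := discrim_le_zero (a := B) (b := 2 * ∫ x, f x * g x ∂μ) (c := A) fun t => by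
      have := key t
      nlinarith
    rw [discrim] at hd
    rw [← Real.sqrt_mul hA]
    exact Real.le_sqrt_of_sq_le (by nlinarith)
  rw [Real.sqrt_le_iff]
  refine ⟨by positivity, ?_⟩
  nlinarith [Real.sq_sqrt hA, Real.sq_sqrt hB]

variable {M : Type u} [TopologicalSpace M] [ChartedSpace E4 M]

namespace Setup

variable (S : Setup M)

theorem l2_nonneg' (w : M → E4 → E4 → ℝ) [MeasurableSpace M] : 0 ≤ S.l2 w := Real.sqrt_nonneg _

theorem sN_neg (m : ℕ) (e : ℝ) (w : M → E4 → E4 → ℝ) : S.sN m e (-w) = S.sN m e w := by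
  simp only [Setup.sN, Setup.read, readC_neg, iteratedFDeriv_neg_apply, norm_neg]

variable [IsManifold (𝓡 4) ∞ M]

theorem continuousOn_deriv_ball2 (i : Fin S.at_.n) {w : M → E4 → E4 → ℝ} (hw : IsTwoForm w)
    (j : ℕ) : ContinuousOn (fun y => ‖iteratedFDeriv ℝ j (S.read i w) y‖) (closedBall 0 2) :=
  ((S.continuousOn_read_deriv i hw j).mono ((closedBall_subset_closedBall (by norm_num)).trans
    (S.at_.ball_subset i))).norm

theorem sN_smul (m : ℕ) (e r : ℝ) {w : M → E4 → E4 → ℝ} (hw : IsTwoForm w) :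
    S.sN m e (r • w) = |r| * S.sN m e w := by
  simp only [Setup.sN, Finset.mul_sum]
  refine Finset.sum_congr rfl fun i _ => Finset.sum_congr rfl fun j _ => ?_
  rw [mul_left_comm |r|]
  congr 1
  rw [← Real.sqrt_sq_eq_abs r, ← Real.sqrt_mul (sq_nonneg r), ← integral_const_mul]
  congr 1
  refine setIntegral_congr_fun measurableSet_closedBall fun y hy => ?_
  rw [Setup.read, readC_smul, iteratedFDeriv_const_smul_apply, norm_smul, mul_pow,
    Real.norm_eq_abs, sq_abs]
  · rfl
  · exact (S.contDiffAt_read i hw (closedBall_subset_closedBall (by norm_num) hy)).of_le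
      (WithTop.coe_le_coe.mpr le_top)

theorem sN_add_le (m : ℕ) {e : ℝ} (he : 0 ≤ e) {w η : M → E4 → E4 → ℝ} (hw : IsTwoForm w)
    (hη : IsTwoForm η) : S.sN m e (w + η) ≤ S.sN m e w + S.sN m e η := by
  simp only [Setup.sN, ← Finset.sum_add_distrib, ← mul_add]
  refine Finset.sum_le_sum fun i _ => Finset.sum_le_sum fun j _ =>
    mul_le_mul_of_nonneg_left ?_ (pow_nonneg he j)
  have hw' := S.continuousOn_deriv_ball2 i hw j
  have hη' := S.continuousOn_deriv_ball2 i hη j
  refine sqrt_integral_sq_add_le (fun y => norm_nonneg _)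
    ((ae_restrict_mem measurableSet_closedBall).mono fun y hy => ?_)
    ((hw'.pow 2).integrableOn_compact (isCompact_closedBall _ _))
    ((hη'.pow 2).integrableOn_compact (isCompact_closedBall _ _))
    ((hw'.mul hη').integrableOn_compact (isCompact_closedBall _ _))
  rw [S.iteratedFDeriv_read_add i hw hη j (closedBall_subset_closedBall (by norm_num) hy)]
  exact norm_add_le _ _

theorem sN_sub_le (m : ℕ) {e : ℝ} (he : 0 ≤ e) {w η : M → E4 → E4 → ℝ} (hw : IsTwoForm w)
    (hη : IsTwoForm η) : S.sN m e (w - η) ≤ S.sN m e w + S.sN m e η := by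
  rw [sub_eq_add_neg]
  exact (S.sN_add_le m he hw ((Form M).neg_mem hη)).trans_eq (by rw [S.sN_neg])

/-- the semiclassical norms are bounded by the supremum norms -/
theorem exists_sN_le_cN (m : ℕ) : ∃ C, 0 ≤ C ∧ ∀ e : ℝ, 0 ≤ e → e ≤ 1 →
    ∀ w : M → E4 → E4 → ℝ, IsTwoForm w → S.sN m e w ≤ C * S.cN m w := by
  refine ⟨S.at_.n * (m + 1) * Real.sqrt (volume.real (closedBall (0 : E4) 2)), by positivity,
    fun e he he1 w hw => ?_⟩
  calc S.sN m e w ≤ ∑ _i : Fin S.at_.n, ∑ _j ∈ Finset.range (m + 1),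
        Real.sqrt (volume.real (closedBall (0 : E4) 2)) * S.cN m w := by
        refine Finset.sum_le_sum fun i _ => Finset.sum_le_sum fun j hj => ?_
        refine (mul_le_of_le_one_left (Real.sqrt_nonneg _) (pow_le_one₀ he he1)).trans ?_
        conv_rhs => rw [← Real.sqrt_sq (S.cN_nonneg m w), ← Real.sqrt_mul measureReal_nonneg]
        refine Real.sqrt_le_sqrt ((le_abs_self _).trans ((Real.norm_eq_abs _).symm.le.trans
          ((norm_setIntegral_le_of_norm_le_const measure_closedBall_lt_top fun y hy => ?_).trans_eq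
            (mul_comm _ _))))
        rw [Real.norm_eq_abs, abs_of_nonneg (sq_nonneg _)]
        exact pow_le_pow_left₀ (norm_nonneg _) (S.deriv_le_cN
          (Nat.lt_succ_iff.1 (Finset.mem_range.1 hj)) i hw
          (closedBall_subset_closedBall (by norm_num) hy)) 2
    _ = _ := by simp; ring

variable [T2Space M] [CompactSpace M] [MeasurableSpace M] [BorelSpace M]

theorem l2_add_le {w η : M → E4 → E4 → ℝ} (hw : IsTwoForm w) (hη : IsTwoForm η) :
    S.l2 (w + η) ≤ S.l2 w + S.l2 η :=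
  sqrt_integral_sq_add_le (fun x => S.nrm_nonneg _ x)
    (Eventually.of_forall fun x => S.nrm_add_le w η x)
    (S.integrable_of_continuous ((S.continuous_nrm hw).pow 2))
    (S.integrable_of_continuous ((S.continuous_nrm hη).pow 2))
    (S.integrable_of_continuous ((S.continuous_nrm hw).mul (S.continuous_nrm hη)))

omit [IsManifold (𝓡 4) ∞ M] [T2Space M] [CompactSpace M] [BorelSpace M] in
theorem l2_smul (r : ℝ) (w : M → E4 → E4 → ℝ) : S.l2 (r • w) = |r| * S.l2 w := by
  simp only [Setup.l2, S.nrm_smul, mul_pow, sq_abs, integral_const_mul,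
    Real.sqrt_mul (sq_nonneg r), Real.sqrt_sq_eq_abs]

/-- the square-integral norm is bounded by the supremum norm -/
theorem exists_l2_le_cN : ∃ C, 0 ≤ C ∧ ∀ (N : ℕ) (w : M → E4 → E4 → ℝ), IsTwoForm w →
    S.l2 w ≤ C * S.cN N w := by
  refine ⟨Real.sqrt (S.vol.real univ), Real.sqrt_nonneg _, fun N w hw => ?_⟩
  conv_rhs => rw [← Real.sqrt_sq (S.cN_nonneg N w), ← Real.sqrt_mul measureReal_nonneg]
  refine Real.sqrt_le_sqrt ((integral_mono (S.integrable_of_continuous ((S.continuous_nrm hw).pow 2))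
    (integrable_const _) fun x => pow_le_pow_left₀ (S.nrm_nonneg _ x) (S.nrm_le_cN N hw x) 2).trans_eq
    (by simp [smul_eq_mul]))

end Setup

end Vale.Agent.P204.Full
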