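import Vale.Agent.P204.Full.Global.Vol
import Vale.Agent.P204.Full.Global.Exact
import Vale.Agent.P204.Full.Global.FlatStokes

/-!
P204, global lemmas: integration by parts on the manifold; exact forms are orthogonal to closed
ones, closedness and equality are detected by the pairing (helper23).
-/

namespace Vale.Agent.P204.Full

open Set Filter Metric MeasureTheory
open scoped Manifold ContDiff Topology

set_option linter.unusedSectionVars false

universe u

variable {M : Type u} [TopologicalSpace M] [ChartedSpace E4 M]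

/-- coefficients of a field as a bilinear map valued function in a chart -/
noncomputable def bRead (c : OpenPartialHomeomorph M E4) (w : M → E4 → E4 → ℝ) (y : E4) :
    E4 →L[ℝ] E4 →L[ℝ] ℝ := bilinOf (readC c w y)

theorem bRead_apply (c : OpenPartialHomeomorph M E4) (w : M → E4 → E4 → ℝ) (y u v : E4) :
    bRead c w y u v = ∑ a, ∑ b, u a * v b * readC c w y a b := by
  rw [bRead, bilinOf_apply]
  exact Finset.sum_congr rfl fun a _ => Finset.sum_congr rfl fun b _ => mul_comm _ _

variable [IsManifold (𝓡 4) ∞ M]

theorem differentiableAt_bRead {w : M → E4 → E4 → ℝ} (hw : IsTwoForm w)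
    {c : OpenPartialHomeomorph M E4} (hc : IsChart c) {y : E4} (hy : y ∈ c.target) :
    DifferentiableAt ℝ (bRead c w) y := by
  have h : ContDiffOn ℝ ∞ (bRead c w) c.target := by
    unfold bRead bilinOf
    refine ContDiffOn.sum fun a _ => ContDiffOn.sum fun b _ => ?_
    let T : ℝ →L[ℝ] E4 →L[ℝ] E4 →L[ℝ] ℝ := ContinuousLinearMap.toSpanSingleton ℝ
      ((EuclideanSpace.proj a).smulRight (EuclideanSpace.proj b : E4 →L[ℝ] ℝ))
    exact (T.contDiff.comp_contDiffOn (hw.contDiffOn_coef hc a b)).congr fun z _ => rfl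
  exact ((h y hy).differentiableWithinAt (by decide)).differentiableAt
    (c.open_target.mem_nhds hy)

/-- the exterior derivative of a two-form in two charts -/
theorem d2_readC_tr {w : M → E4 → E4 → ℝ} (hw : IsTwoForm w) {c c' : OpenPartialHomeomorph M E4}
    (hc : IsChart c) (hc' : IsChart c') {y : E4} (hy : y ∈ ov c c')
    (h0 : ∀ a b e, d2 (readC c' w) (tr c c' y) a b e = 0) (i j k : Fin 4) :
    d2 (readC c w) y i j k = 0 := by
  set τ := tr c c' with hτdef
  have hτ : ContDiffAt ℝ 2 τ y :=
    (contDiffAt_tr hc hc' hy).of_le (WithTop.coe_le_coe.mpr le_top)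
  have hdB := differentiableAt_bRead hw hc' (tr_mem_ov hy).1
  have he : ∀ a b : Fin 4, (fun z => readC c w z a b) =ᶠ[𝓝 y] fun z =>
      bRead c' w (τ z) (fderiv ℝ τ z (ev4 a)) (fderiv ℝ τ z (ev4 b)) := by
    intro a b
    filter_upwards [(isOpen_ov c c').mem_nhds hy] with z hz
    rw [hw.isAltField.readC_tr hc hc' hz, bRead_apply]
    rfl
  simp only [d2, pd]
  rw [(he j k).fderiv_eq, (he k i).fderiv_eq, (he i j).fderiv_eq,
    cyclic_fderiv_pull hdB hτ (fun a b => by
      rw [bRead_apply, bRead_apply, ← hw.isAltField.dInv_eq_sum, ← hw.isAltField.dInv_eq_sum]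
      exact hw.2.1 _ _ _)]
  set D := fderiv ℝ (bRead c' w) (τ y) with hD
  have hB : ∀ a b e : Fin 4, D (ev4 a) (ev4 b) (ev4 e) =
      pd (fun z => readC c' w z b e) a (τ y) := by
    intro a b e
    have h := ((hdB.hasFDerivAt.clm_apply (hasFDerivAt_const (ev4 b) (τ y))).clm_apply
      (hasFDerivAt_const (ev4 e) (τ y))).fderiv
    have he' : (fun z => bRead c' w z (ev4 b) (ev4 e)) = fun z => readC c' w z b e := by
      funext z
      simp [bRead_apply, ev4_coord]
    rw [he'] at h
    rw [pd, h]
    simp [hD, hτdef]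
  have hexp : ∀ p q r : E4, D p q r =
      ∑ a, ∑ b, ∑ e, p a * q b * r e * D (ev4 a) (ev4 b) (ev4 e) := by
    intro p r t
    have e1 : D p r t = ∑ a, p a * D (ev4 a) r t := by
      conv_lhs => rw [← sum_ev4 p]
      simp
    have e2 : ∀ e : E4, D e r t = ∑ b, r b * D e (ev4 b) t := fun e => by
      conv_lhs => rw [← sum_ev4 r]
      simp
    have e3 : ∀ e e' : E4, D e e' t = ∑ c, t c * D e e' (ev4 c) := fun e e' => by
      conv_lhs => rw [← sum_ev4 t]
      simp
    rw [e1]
    simp only [e2, e3, Finset.mul_sum]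
    exact Finset.sum_congr rfl fun a _ => Finset.sum_congr rfl fun b _ =>
      Finset.sum_congr rfl fun c _ => by ring
  set P := fderiv ℝ τ y (ev4 i)
  set Q := fderiv ℝ τ y (ev4 j)
  set R := fderiv ℝ τ y (ev4 k)
  have key : D P Q R + D Q R P + D R P Q =
      ∑ a, ∑ b, ∑ e, P a * Q b * R e * d2 (readC c' w) (τ y) a b e := by
    rw [hexp P Q R, hexp Q R P, hexp R P Q]
    simp only [d2, ← hB, mul_add, Finset.sum_add_distrib]
    congr 1
    congr 1
    · rw [Finset.sum_comm (f := fun a b => ∑ e, P a * Q b * R e * D (ev4 b) (ev4 e) (ev4 a))]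
      refine Finset.sum_congr rfl fun b _ => ?_
      rw [Finset.sum_comm]
      exact Finset.sum_congr rfl fun e _ => Finset.sum_congr rfl fun a _ => by ring
    · rw [Finset.sum_congr rfl fun a _ => Finset.sum_comm
        (f := fun b e => P a * Q b * R e * D (ev4 e) (ev4 a) (ev4 b))]
      rw [Finset.sum_comm]
      exact Finset.sum_congr rfl fun e _ => Finset.sum_congr rfl fun a _ =>
        Finset.sum_congr rfl fun b _ => by ring
  rw [key]
  simp [h0]

namespace Setup

variable (S : Setup M)

/-- closedness may be checked in the adapted charts -/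
theorem isClosedForm_of_d2_read {w : M → E4 → E4 → ℝ} (hw : IsTwoForm w)
    (h : ∀ i, ∀ y ∈ ball (0 : E4) 1, ∀ a b e, d2 (S.read i w) y a b e = 0) : IsClosedForm w := by
  refine isClosedForm_of_d2 hw fun p a b e => ?_
  obtain ⟨k, hk, hkb⟩ := S.exists_chart_mem p
  refine d2_readC_tr hw (isChart_chartAt p) (S.at_.mem_maximal k)
    (self_mem_ov (mem_chart_source E4 p) hk) ?_ a b e
  have ht : tr (chartAt E4 p) (S.at_.chart k) (chartAt E4 p p) = S.at_.chart k p := by
    show S.at_.chart k ((chartAt E4 p).symm (chartAt E4 p p)) = _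
    rw [(chartAt E4 p).left_inv (mem_chart_source E4 p)]
  rw [ht]
  exact h k _ hkb

variable [T2Space M] [CompactSpace M] [MeasurableSpace M] [BorelSpace M]

/-- the pairing when one factor lives in the `i`-th chart -/
theorem pair_read (i : Fin S.at_.n) {w η : M → E4 → E4 → ℝ} (hw : IsTwoForm w) (hη : IsTwoForm η)
    {K : Set E4} (hK : IsCompact K) (hK4 : K ⊆ closedBall (0 : E4) 4)
    (h0 : ∀ x, x ∉ (S.at_.chart i).symm '' K → η x = 0) :
    S.pair w η = ∫ y in closedBall (0 : E4) 4, wdg (S.read i w y) (S.read i η y) := by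
  have hKt : K ⊆ (S.at_.chart i).target := hK4.trans (S.at_.ball_subset i)
  have hcl : IsClosed ((S.at_.chart i).symm '' K) :=
    (hK.image_of_continuousOn ((S.at_.chart i).symm.continuousOn.mono hKt)).isClosed
  have hs : tsupport (wg S.F.1 w η) ⊆ (S.at_.chart i).symm '' K := by
    refine closure_minimal (fun x hx => ?_) hcl
    by_contra hn
    exact hx (by simp [wg, coefAt, h0 x hn, wdg])
  have hs' : tsupport (wg S.F.1 w η) ⊆
      (S.at_.chart i).source ∩ S.at_.chart i ⁻¹' closedBall (0 : E4) 4 := fun x hx => by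
    obtain ⟨y, hy, rfl⟩ := hs hx
    exact ⟨(S.at_.chart i).map_target (hKt hy), by
      rw [mem_preimage, (S.at_.chart i).right_inv (hKt hy)]; exact hK4 hy⟩
  rw [Setup.pair, S.integral_vol_read i (S.continuous_wg hw hη) hs']
  refine setIntegral_congr_fun measurableSet_closedBall fun y hy => ?_
  rw [S.wg_read i hw.isAltField hη.isAltField hy]
  have hne := (S.wdg_read_F_pos i hy).ne'
  field_simp

/-- the one-form `ρᵢ α` -/
theorem isOneForm_smul_rho (i : Fin S.at_.n) {α : M → E4 → ℝ} (hα : IsOneForm α) :
    IsOneForm fun x v => S.at_.rho i x * α x v :=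
  ⟨fun x => ⟨fun a b => by simp [(hα.1 x).map_add, mul_add],
    fun r a => by simp [(hα.1 x).map_smul]; ring⟩,
    fun x0 v => (S.at_.rho_smooth i x0).mul (hα.2 x0 v)⟩

theorem dOne_eq_sum_rho {α : M → E4 → ℝ} (hα : IsOneForm α) :
    dOne α = ∑ i, dOne fun x v => S.at_.rho i x * α x v := by
  funext x u v
  simp only [Finset.sum_apply, dOne]
  conv_rhs => rw [Finset.sum_comm]
  refine Finset.sum_congr rfl fun a _ => ?_
  conv_rhs => rw [Finset.sum_comm]
  refine Finset.sum_congr rfl fun b _ => ?_
  rw [← Finset.mul_sum]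
  congr 1
  set c := chartAt E4 x
  have hn := c.open_target.mem_nhds (c.map_source (mem_chart_source E4 x))
  have hd : ∀ (k : Fin S.at_.n) q, DifferentiableAt ℝ
      (fun z => read1 c (fun p r => S.at_.rho k p * α p r) z q) (c x) := fun k q =>
    ((contDiffOn_pi.1 ((S.isOneForm_smul_rho k hα).contDiffOn_read1 (isChart_chartAt x))
      q).differentiableOn (by decide)).differentiableAt hn
  have he : ∀ q, (fun z => read1 c α z q) =
      fun z => ∑ k, read1 c (fun p r => S.at_.rho k p * α p r) z q := fun q => by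
    funext z
    simp [read1, ← Finset.sum_mul, S.at_.rho_sum]
  simp only [d1, pd]
  rw [he b, he a, fderiv_fun_sum fun k _ => hd k b, fderiv_fun_sum fun k _ => hd k a]
  simp [Finset.sum_sub_distrib]

/-- the pairing with the differential of a localised one-form -/
theorem pair_dOne_rho (i : Fin S.at_.n) {w : M → E4 → E4 → ℝ} (hw : IsTwoForm w)
    {α : M → E4 → ℝ} (hα : IsOneForm α) :
    S.pair w (dOne fun x v => S.at_.rho i x * α x v) = -∫ y in ball (0 : E4) 4,
      wdg3 (d2 (S.read i w) y) (read1 (S.at_.chart i) (fun x v => S.at_.rho i x * α x v) y) := by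
  set β := fun x v => S.at_.rho i x * α x v with hβdef
  have hβ : IsOneForm β := S.isOneForm_smul_rho i hα
  set c := S.at_.chart i with hc
  have hci : IsChart c := S.at_.mem_maximal i
  set K : Set E4 := c '' tsupport (S.at_.rho i) with hKdef
  have hKc : IsCompact K := ((isClosed_tsupport _).isCompact).image_of_continuousOn
    (c.continuousOn.mono fun x hx => (S.at_.rho_support i hx).1)
  have hK1 : K ⊆ ball (0 : E4) 1 := by
    rintro _ ⟨x, hx, rfl⟩
    exact (S.at_.rho_support i hx).2
  have hK4 : K ⊆ ball (0 : E4) 4 := hK1.trans (ball_subset_ball (by norm_num))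
  have hx0 : ∀ x, x ∉ c.symm '' K → x ∉ tsupport (S.at_.rho i) := fun x hx hm =>
    hx ⟨c x, mem_image_of_mem c hm, c.left_inv (S.at_.rho_support i hm).1⟩
  have h0 : ∀ x, x ∉ c.symm '' K → dOne β x = 0 := fun x hx => by
    have hz : ∀ᶠ p in 𝓝 x, β p = 0 := by
      filter_upwards [notMem_tsupport_iff_eventuallyEq.1 (hx0 x hx)] with p hp
      funext v
      simp [hβdef, hp]
    have hr : ∀ q, (fun z => read1 (chartAt E4 x) β z q) =ᶠ[𝓝 (chartAt E4 x x)]
        fun _ => (0 : ℝ) := fun q => by
      filter_upwards [eventually_nhds_chart (mem_chart_source E4 x) hz] with z hz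
      simp only [read1, hz]
      rfl
    funext u v
    simp [dOne, d1, pd, (hr _).fderiv_eq]
  have hA0 : ∀ y ∈ ball (0 : E4) 4, y ∉ K → read1 c β y = 0 := fun y hy hyK => by
    funext q
    have hn : c.symm y ∉ tsupport (S.at_.rho i) := fun hm => hyK
      ⟨c.symm y, hm, c.right_inv (S.at_.ball_subset i (ball_subset_closedBall hy))⟩
    simp [read1, hβdef, image_eq_zero_of_notMem_tsupport hn]
  have hsub : ball (0 : E4) 4 ⊆ c.target := ball_subset_closedBall.trans (S.at_.ball_subset i)
  rw [S.pair_read i hw (isTwoForm_dOne hβ) hKc (hK4.trans ball_subset_closedBall) h0,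
    setIntegral_eq_of_subset_of_forall_sdiff_eq_zero measurableSet_closedBall
      ball_subset_closedBall fun y hy => ?_,
    setIntegral_congr_fun measurableSet_ball (g := fun y => wdg (d1 (read1 c β) y) (S.read i w y))
      fun y hy => ?_]
  · exact integral_wdg_d1 isOpen_ball hKc hK4
      (((hβ.contDiffOn_read1 hci).mono hsub).of_le (by exact_mod_cast le_top))
      (((hw.contDiffOn_readC hci).mono hsub).of_le (by exact_mod_cast le_top))
      (fun y _ => hw.isAltField.anti_readC c y) hA0
  · simp only [Setup.read, ← hc]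
    rw [readC_dOne hβ hci (hsub hy), Alg.wdg_comm]
  · have hz : dOne β (c.symm y) = 0 := h0 _ fun hm => by
      obtain ⟨z, hz, hzy⟩ := hm
      have hzy' : z = y := by
        have := congrArg c hzy
        rwa [c.right_inv (hsub (hK4 hz)), c.right_inv (S.at_.ball_subset i hy.1)] at this
      exact hy.2 (hzy' ▸ hK4 hz)
    simp [Setup.read, readC, ← hc, hz, wdg]

/-- closed forms are orthogonal to exact ones -/
theorem pair_closed_exact {w η : M → E4 → E4 → ℝ} (hw : IsTwoForm w) (hcl : IsClosedForm w)
    (hη : IsExactForm η) : S.pair w η = 0 := by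
  obtain ⟨α, hα, rfl⟩ := isExactForm_iff.1 hη
  rw [S.dOne_eq_sum_rho hα]
  let e : Fin S.at_.n → Form M := fun i =>
    ⟨dOne fun x v => S.at_.rho i x * α x v, isTwoForm_dOne (S.isOneForm_smul_rho i hα)⟩
  have h : (∑ i, dOne fun x v => S.at_.rho i x * α x v) = (∑ i, e i : Form M).1 := by
    simp [e]
  rw [h, show S.pair w (∑ i, e i : Form M).1 = S.pairL ⟨w, hw⟩ (∑ i, e i) from rfl, map_sum]
  refine Finset.sum_eq_zero fun i _ => ?_
  show S.pair w (dOne _) = 0
  rw [S.pair_dOne_rho i hw hα, neg_eq_zero]
  refine setIntegral_eq_zero_of_forall_eq_zero fun y hy => ?_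
  have hd : ∀ a b e, d2 (S.read i w) y a b e = 0 := fun a b e =>
    hcl.d2_readC hw (S.at_.mem_maximal i) (S.at_.ball_subset i (ball_subset_closedBall hy)) a b e
  simp [wdg3, hd]

theorem pair_exact_closed {w η : M → E4 → E4 → ℝ} (hw : IsExactForm w) (hη : IsTwoForm η)
    (hcl : IsClosedForm η) : S.pair w η = 0 := by
  rw [S.pair_comm, S.pair_closed_exact hη hcl hw]

/-- a form orthogonal to all exact forms is closed -/
theorem isClosedForm_of_pair {w : M → E4 → E4 → ℝ} (hw : IsTwoForm w)
    (h : ∀ η : Form M, IsExactForm η.1 → S.pair w η.1 = 0) : IsClosedForm w := by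
  refine S.isClosedForm_of_d2_read hw fun i y hy => ?_
  set c := S.at_.chart i with hc
  have hci : IsChart c := S.at_.mem_maximal i
  have hsub : ball (0 : E4) 4 ⊆ c.target := ball_subset_closedBall.trans (S.at_.ball_subset i)
  have hW : ContDiffOn ℝ 1 (S.read i w) (ball (0 : E4) 4) :=
    ((hw.contDiffOn_readC hci).mono hsub).of_le (by exact_mod_cast le_top)
  have hanti : ∀ z, Anti (S.read i w z) := hw.isAltField.anti_readC c
  have hd2c : ∀ a b e, ContinuousOn (fun z => d2 (S.read i w) z a b e) (ball (0 : E4) 4) := by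
    intro a b e
    have hp := fun p q r => Heart.continuousOn_pd (isOpen_ball (x := (0 : E4)) (ε := 4))
      (contDiffOn_pi.1 (contDiffOn_pi.1 hW p) q) r
    exact ((hp b e a).add (hp e a b)).add (hp a b e)
  have key : ∀ A0 : C1, ∀ z ∈ ball (0 : E4) 4, wdg3 (d2 (S.read i w) z) A0 = 0 := by
    intro A0
    set f : E4 → ℝ := fun z => wdg3 (d2 (S.read i w) z) A0 with hf
    have hfc : ContinuousOn f (ball (0 : E4) 4) :=
      (((continuousOn_const.mul (hd2c 1 2 3)).neg.add (continuousOn_const.mul (hd2c 0 2 3))).sub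
        (continuousOn_const.mul (hd2c 0 1 3))).add (continuousOn_const.mul (hd2c 0 1 2))
    have hint : ∀ g : E4 → ℝ, ContDiff ℝ ∞ g → HasCompactSupport g →
        tsupport g ⊆ ball (0 : E4) 4 → ∫ z, g z • f z = 0 := by
      intro g hg hgc hgs
      set A : E4 → C1 := fun z => g z • A0 with hA
      have hAs : ContDiff ℝ ∞ A := hg.smul contDiff_const
      have hA0 : ∀ z, z ∉ tsupport g → A z = 0 := fun z hz => by
        simp [hA, image_eq_zero_of_notMem_tsupport hz]
      obtain ⟨hex, heq⟩ := isExactForm_extC (M := M) hci hgc (hgs.trans hsub) hAs.contDiffOn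
        fun z _ hz => hA0 z hz
      have hpair := h ⟨_, hex.isTwoForm⟩ hex
      have h0 : ∀ x, x ∉ c.symm '' tsupport g → extC c (d1 A) x = 0 := fun x hx => by
        by_cases hxs : x ∈ c.source
        · have hn : c x ∉ tsupport g := fun hm => hx ⟨c x, hm, c.left_inv hxs⟩
          have hd : d1 A (c x) = 0 := by
            funext a b
            have hz : ∀ q, (fun z => A z q) =ᶠ[𝓝 (c x)] fun _ => (0 : ℝ) := fun q => by
              filter_upwards [(isClosed_tsupport g).isOpen_compl.mem_nhds hn] with z hz
              rw [hA0 z hz]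
              rfl
            simp [d1, pd, (hz _).fderiv_eq]
          funext u v
          simp [extC, indicator_of_mem hxs, pushC, hd]
        · exact indicator_of_notMem hxs _
      rw [S.pair_read i hw hex.isTwoForm hgc (hgs.trans ball_subset_closedBall) h0,
        setIntegral_eq_of_subset_of_forall_sdiff_eq_zero measurableSet_closedBall
          ball_subset_closedBall fun z hz => ?_,
        setIntegral_congr_fun measurableSet_ball (g := fun z => wdg (d1 A z) (S.read i w z))
          fun z hz => ?_,
        integral_wdg_d1 isOpen_ball hgc hgs (hAs.contDiffOn.of_le (by exact_mod_cast le_top)) hW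
          (fun z _ => hanti z) (fun z _ hz => hA0 z hz), neg_eq_zero,
        setIntegral_eq_integral_of_forall_compl_eq_zero fun z hz => ?_] at hpair
      · refine Eq.trans (integral_congr_ae (Eventually.of_forall fun z => ?_)) hpair
        simp only [hA, hf, wdg3, Pi.smul_apply, smul_eq_mul]
        ring
      · simp [wdg3, hA0 z fun hm => hz (hgs hm)]
      · simp only [Setup.read, ← hc]
        rw [readC_extC hci _ (hsub hz), Alg.wdg_comm]
      · have hz' : c.symm z ∉ c.symm '' tsupport g := fun ⟨q, hq, hqz⟩ => by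
          have := congrArg c hqz
          rw [c.right_inv (hsub (hgs hq)), c.right_inv (S.at_.ball_subset i hz.1)] at this
          exact hz.2 (this ▸ hgs hq)
        simp [Setup.read, readC, ← hc, h0 _ hz', wdg]
    have hae := isOpen_ball.ae_eq_zero_of_integral_contDiff_smul_eq_zero
      (hfc.locallyIntegrableOn measurableSet_ball) hint
    exact Measure.eqOn_open_of_ae_eq (μ := (volume : Measure E4))
      ((ae_restrict_iff' measurableSet_ball).2 hae) isOpen_ball hfc continuousOn_const
  have hy4 : y ∈ ball (0 : E4) 4 := ball_subset_ball (by norm_num) hy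
  refine d2_eq_zero_of_four (Eventually.of_forall hanti) ?_ ?_ ?_ ?_
  · simpa [wdg3] using key ![1, 0, 0, 0] y hy4
  · simpa [wdg3] using key ![0, 1, 0, 0] y hy4
  · simpa [wdg3] using key ![0, 0, 1, 0] y hy4
  · simpa [wdg3] using key ![0, 0, 0, 1] y hy4

/-- a form is determined by its pairings -/
theorem eq_zero_of_pair {w : M → E4 → E4 → ℝ} (hw : IsTwoForm w)
    (h : ∀ η : Form M, S.pair w η.1 = 0) : w = 0 := by
  have key : ∀ i, ∀ z ∈ ball (0 : E4) 4, S.read i w z = 0 := by
    intro i
    set c := S.at_.chart i with hc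
    have hci : IsChart c := S.at_.mem_maximal i
    have hsub : ball (0 : E4) 4 ⊆ c.target := ball_subset_closedBall.trans (S.at_.ball_subset i)
    have hK : ∀ B : C2, Anti B → ∀ z ∈ ball (0 : E4) 4, wdg (S.read i w z) B = 0 := by
      intro B hB
      have hC := fun a b => ((hw.contDiffOn_coef hci a b).mono hsub).continuousOn
      set f : E4 → ℝ := fun z => wdg (S.read i w z) B with hf
      have hfc : ContinuousOn f (ball (0 : E4) 4) :=
        ((((((hC 0 1).mul continuousOn_const).sub ((hC 0 2).mul continuousOn_const)).add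
          ((hC 0 3).mul continuousOn_const)).add ((hC 1 2).mul continuousOn_const)).sub
          ((hC 1 3).mul continuousOn_const)).add ((hC 2 3).mul continuousOn_const)
      have hint : ∀ g : E4 → ℝ, ContDiff ℝ ∞ g → HasCompactSupport g →
          tsupport g ⊆ ball (0 : E4) 4 → ∫ z, g z • f z = 0 := by
        intro g hg hgc hgs
        have hW : IsTwoForm (extC c fun z => g z • B) :=
          isTwoForm_extC hci hgc (hgs.trans hsub)
            (fun z a b => by simp [hB a b]) (hg.smul contDiff_const).contDiffOn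
            fun z _ hz => by simp [image_eq_zero_of_notMem_tsupport hz]
        have hpair := h ⟨_, hW⟩
        have h0 : ∀ x, x ∉ c.symm '' tsupport g → extC c (fun z => g z • B) x = 0 := fun x hx => by
          by_cases hxs : x ∈ c.source
          · have hn : c x ∉ tsupport g := fun hm => hx ⟨c x, hm, c.left_inv hxs⟩
            funext u v
            simp [extC, indicator_of_mem hxs, pushC, image_eq_zero_of_notMem_tsupport hn]
          · exact indicator_of_notMem hxs _
        rw [S.pair_read i hw hW hgc (hgs.trans ball_subset_closedBall) h0,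
          setIntegral_congr_fun measurableSet_closedBall
            (g := fun z => g z * wdg (S.read i w z) B) fun z hz => ?_,
          setIntegral_eq_integral_of_forall_compl_eq_zero fun z hz => ?_] at hpair
        · simpa [hf] using hpair
        · simp [image_eq_zero_of_notMem_tsupport fun hm => hz (ball_subset_closedBall (hgs hm))]
        · simp only [Setup.read, ← hc]
          rw [readC_extC hci _ (S.at_.ball_subset i hz), Alg.wdg_smul_right]
      have hae := isOpen_ball.ae_eq_zero_of_integral_contDiff_smul_eq_zero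
        (hfc.locallyIntegrableOn measurableSet_ball) hint
      exact Measure.eqOn_open_of_ae_eq (μ := (volume : Measure E4))
        ((ae_restrict_iff' measurableSet_ball).2 hae) isOpen_ball hfc continuousOn_const
    intro z hz
    set b := S.read i w z with hb
    have ha : Anti b := hw.isAltField.anti_readC c z
    set U : Fin 4 → Fin 4 → C2 := fun p q a e =>
      (if a = p ∧ e = q then 1 else 0) - (if a = q ∧ e = p then 1 else 0) with hU
    have hUa : ∀ p q, Anti (U p q) := fun p q a e => by
      simp only [hU]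
      rw [neg_sub]
      congr 1 <;> exact if_congr and_comm rfl rfl
    have e01 := hK _ (hUa 2 3) z hz
    have e02 := hK _ (hUa 1 3) z hz
    have e03 := hK _ (hUa 1 2) z hz
    have e12 := hK _ (hUa 0 3) z hz
    have e13 := hK _ (hUa 0 2) z hz
    have e23 := hK _ (hUa 0 1) z hz
    simp [wdg, hU, ← hb] at e01 e02 e03 e12 e13 e23
    have hd : ∀ k, b k k = 0 := fun k => by linarith [ha k k]
    funext p q
    show b p q = 0
    fin_cases p <;> fin_cases q <;>
      simp [hd, ha 0 1, ha 0 2, ha 0 3, ha 1 2, ha 1 3, ha 2 3, e01, e02, e03, e12, e13, e23]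
  funext x u v
  obtain ⟨k, hk, hkb⟩ := S.exists_chart_mem x
  have hz : readC (S.at_.chart k) w (S.at_.chart k x) = 0 :=
    key k _ (ball_subset_ball (by norm_num) hkb)
  rw [hw.isAltField.apply_eq_readC (S.at_.mem_maximal k) hk, hz]
  simp

theorem eq_of_pair_eq {w w' : Form M} (h : ∀ η : Form M, S.pair w.1 η.1 = S.pair w'.1 η.1) :
    w = w' := by
  have h0 : (w - w').1 = 0 := S.eq_zero_of_pair (w - w').2 fun η => by
    rw [show S.pair (w - w').1 η.1 = S.pairL (w - w') η from rfl, map_sub, LinearMap.sub_apply,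
      S.pairL_apply, S.pairL_apply, h η, sub_self]
  exact sub_eq_zero.1 (Subtype.ext h0)

end Setup

end Vale.Agent.P204.Full
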